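import Vale.Agent.P207Z.End.Rep

/-!
# P207: lifting an isotropic family to the strong stable leaves
-/

set_option linter.all false

open Set Filter Topology Metric
open scoped ContDiff

noncomputable section

namespace Vale.Agent.P207Z

variable {Γ X B E V : Type} [Group Γ] [Countable Γ] [MetricSpace X] [ProperSpace X]
  [MulAction Γ X] [IsIsometricSMul Γ X] [MeasurableSpace X] [BorelSpace X]
  [TopologicalSpace B] [CompactSpace B] [T2Space B] [SecondCountableTopology B] [MulAction Γ B]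
  [ContinuousConstSMul Γ B] [MeasurableSpace B] [BorelSpace B]
  [NormedAddCommGroup E] [InnerProductSpace ℝ E] [FiniteDimensional ℝ E]
  [NormedAddCommGroup V] [NormedSpace ℝ V] [FiniteDimensional ℝ V]
  {A A' W : Type} [NormedAddCommGroup A] [NormedSpace ℝ A] [NormedAddCommGroup A']
  [NormedSpace ℝ A'] [NormedAddCommGroup W] [NormedSpace ℝ W]
  {S : Sys Γ X B E V} {m : ℕ} {b : Module.Basis (Fin m) ℝ E} {Mg : Marg S b}

namespace Tim

open Sys

variable (Tm : Tim S Mg)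

theorem al_zero : S.al 0 = 0 := by simp [Sys.al]

/-- change from the chart centred at the point to any chart -/
theorem shift {P : A → B × B} {p : A} {x y : X} {Q Q' : A → V} (u : A → ℝ) (h : S.Rep P p x Q)
    (h' : S.Rep P p y Q') (h0 : Q' p = 0) {ι : A' → A} {ι' : A' →L[ℝ] A} {a : A'}
    (hι : HasFDerivAt ι ι' a) (ha : ι a = p) :
    HasFDerivAt (fun a' => u (ι a') - Tm.T y (Q' (ι a'))) (0 : A' →L[ℝ] ℝ) a ↔
      HasFDerivAt (fun a' => Tm.κ * (u (ι a') - Tm.T x (Q (ι a'))))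
        (-(S.al (Q p) ∘L fderiv ℝ Q p ∘L ι')) a := by
  subst ha
  have d := h.dom h'
  have e1 : Tm.κ • fderiv ℝ (Tm.dt x y) (Q (ι a)) = -S.al (Q (ι a)) := by
    have := Tm.al_τ x y _ d
    have e0 : S.τ x y (Q (ι a)) = 0 := (h.evEq h').self_of_nhds.symm.trans h0
    rw [e0, al_zero, ContinuousLinearMap.zero_comp] at this
    exact eq_neg_of_add_eq_zero_right this.symm
  have e2 : HasFDerivAt (fun a' => Tm.κ * Tm.dt x y (Q (ι a')))
      (-(S.al (Q (ι a)) ∘L fderiv ℝ Q (ι a) ∘L ι')) a := by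
    have := (((Tm.dt_jc.hasFDerivAt (p := ((x, y), Q (ι a))) d).comp (ι a) h.diff.hasFDerivAt).comp
      a hι).const_mul Tm.κ
    rwa [ContinuousLinearMap.comp_assoc, ← ContinuousLinearMap.smul_comp, e1,
      ContinuousLinearMap.neg_comp] at this
  have e3 : ∀ᶠ a' in 𝓝 a, Tm.κ * (u (ι a') - Tm.T x (Q (ι a'))) =
      Tm.κ * (u (ι a') - Tm.T y (Q' (ι a'))) + Tm.κ * Tm.dt x y (Q (ι a')) := by
    filter_upwards [hι.continuousAt.eventually ((h.evEq h').and
      (h.diff.continuousAt.eventually (dom_nhds d)))] with a' k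
    rw [Tm.dt_eq x y _ k.2, k.1]
    ring
  constructor
  · intro k
    have := ((k.const_mul Tm.κ).add e2).congr_of_eventuallyEq e3
    rwa [smul_zero, zero_add] at this
  · intro k
    have := (k.sub e2).const_mul Tm.κ⁻¹
    rw [sub_self, smul_zero] at this
    refine this.congr_of_eventuallyEq (e3.mono fun a' k' => ?_)
    have := Tm.κ_ne
    simp only [Pi.sub_apply, k']
    field_simp
    ring

theorem exists_prim {P : A → B × B} {x : X} {Q : A → V} {N : Set A} (hN : Convex ℝ N)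
    (hO : IsOpen N) (h : ∀ p ∈ N, S.Rep P p x Q ∧
      ∀ u v, S.om (fderiv ℝ Q p u) (fderiv ℝ Q p v) = 0) :
    ∃ ψ : A → ℝ, ∀ p ∈ N, HasFDerivAt ψ (S.al (Q p) ∘L fderiv ℝ Q p) p := by
  let L : V →L[ℝ] V →L[ℝ] ℝ := (innerSL ℝ : E →L[ℝ] E →L[ℝ] ℝ).bilinearComp S.pS S.pU
  have k := fun p hp => (L.hasFDerivAt.comp p (h p hp).1.diff.hasFDerivAt).clm_comp (h p hp).1.diff2
  refine hN.exists_forall_hasFDerivAt_of_fderiv_symmetric hO
    (fun p hp => (k p hp).differentiableAt.differentiableWithinAt) fun p hp u v => ?_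
  have k1 : fderiv ℝ (fun p => S.al (Q p) ∘L fderiv ℝ Q p) p = _ := (k p hp).fderiv
  have k2 := (h p hp).2 u v
  rw [om_apply, real_inner_comm (S.pS _), sub_eq_zero] at k2
  rw [k1]
  simp [L, (h p hp).1.symm2 u v, k2]

variable {P : A × W → B × B} {O : Set A} {ξ : B} {β : A → B}

/-- the level of the lifted family in a chart is stationary -/
def Stat (P : A × W → B × B) (p : A × W) : Prop := ∀ x Q, S.Rep P p x Q → Q p = 0 →
  HasFDerivAt (fun p' => Tm.D (P p') - Tm.D (P (p'.1, 0)) - Tm.T x (Q p')) (0 : A × W →L[ℝ] ℝ) p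

theorem stat_step (hO : IsOpen O) (base : ∀ y ∈ O, (P (y, 0)).1 = ξ)
    (leaf : ∀ y ∈ O, ∀ s, (P (y, s)).2 = β y) (rep : ∀ y ∈ O, ∀ s, ∃ x Q, S.Rep P (y, s) x Q ∧
      ∀ u v, S.om (fderiv ℝ Q (y, s) u) (fderiv ℝ Q (y, s) v) = 0) {y₀ : A} (hy : y₀ ∈ O) (s₀ : W) :
    ∃ δ > 0, ∀ s₁ ∈ ball s₀ δ, (s₁ = 0 ∨ ∀ᶠ p in 𝓝 (y₀, s₁), Tm.Stat P p) →
      ∀ᶠ p in 𝓝 (y₀, s₀), Tm.Stat P p := by
  obtain ⟨x, Q, hQ, -⟩ := rep y₀ hy s₀
  obtain ⟨δ, δ0, hδ⟩ := Metric.eventually_nhds_iff_ball.1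
    (hQ.eventually.and (continuous_fst.continuousAt.eventually (hO.mem_nhds hy)))
  obtain ⟨ψ, hψ⟩ := exists_prim (P := P) (x := x) (Q := Q) (convex_ball (y₀, s₀) δ) isOpen_ball
    fun p hp => ⟨(hδ p hp).1, fun u v => by
      obtain ⟨x', Q', k1, k2⟩ := rep p.1 (hδ p hp).2 p.2
      exact (k1.om_eq (hδ p hp).1 u v).trans (k2 u v)⟩
  set u : A × W → ℝ := fun p => Tm.D (P p) - Tm.D (P (p.1, 0))
  set f : A × W → ℝ := fun p => Tm.κ * (u p - Tm.T x (Q p)) + ψ p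
  have key : ∀ {A' : Type} [NormedAddCommGroup A'] [NormedSpace ℝ A'] {ι : A' → A × W}
      {ι' : A' →L[ℝ] A × W} {a : A'}, HasFDerivAt ι ι' a → ι a ∈ ball (y₀, s₀) δ →
      (∀ y Q', S.Rep P (ι a) y Q' → Q' (ι a) = 0 →
        HasFDerivAt (fun a' => u (ι a') - Tm.T y (Q' (ι a'))) (0 : A' →L[ℝ] ℝ) a) →
      HasFDerivAt (fun a' => f (ι a')) (0 : A' →L[ℝ] ℝ) a := by
    intro A' _ _ ι ι' a hι ha h
    obtain ⟨y, Q', k1, k2⟩ := (hδ _ ha).1.exists_centre
    have := ((Tm.shift u (hδ _ ha).1 k1 k2 hι rfl).1 (h y Q' k1 k2)).add ((hψ _ ha).comp a hι)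
    rwa [ContinuousLinearMap.comp_assoc, neg_add_cancel] at this
  have mem : ∀ {y s}, y ∈ ball y₀ δ → s ∈ ball s₀ δ → (y, s) ∈ ball (y₀, s₀) δ := fun h1 h2 => by
    rw [← ball_prod_same]
    exact ⟨h1, h2⟩
  have hs : ∀ y ∈ ball y₀ δ, ∀ s ∈ ball s₀ δ, ∀ s' ∈ ball s₀ δ, f (y, s) = f (y, s') := by
    intro y h1 s h2 s' h3
    have k : ∀ s ∈ ball s₀ δ, HasFDerivAt (fun s => f (y, s)) (0 : W →L[ℝ] ℝ) s := fun s hs =>
      key (hasFDerivAt_prodMk_right y s) (mem h1 hs) fun z Q' k1 k2 => by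
        have hy := (hδ _ (mem h1 hs)).2
        refine (hasFDerivAt_const (S.lp z - Tm.D (P (y, 0))) s).congr_of_eventuallyEq ?_
        filter_upwards [(Continuous.prodMk_right y).continuousAt.eventually k1.eventually] with s' k
        have k3 : S.pU (Q' (y, s')) = 0 := (S.c_S z _ k.mem).1 (by
          rw [← k.eq0, leaf y hy, ← leaf y hy s, ← k1.pt_eq k2]; rfl)
        have k4 := Tm.T_S z _ (mem_ball_zero_iff.2 ((S.norm_pS_le _).trans_lt
          (mem_ball_zero_iff.1 k.mem)))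
        rw [eq_iSe k3, ← k.eq0] at k4
        simp only [u]
        linarith
    exact isOpen_ball.is_const_of_fderiv_eq_zero (convex_ball _ _).isPreconnected
      (fun s hs => (k s hs).differentiableAt.differentiableWithinAt) (fun s hs => (k s hs).fderiv)
      h2 h3
  refine ⟨δ, δ0, fun s₁ h1 h2 => ?_⟩
  have k : ∀ᶠ y in 𝓝 y₀, HasFDerivAt (fun y => f (y, s₁)) (0 : A →L[ℝ] ℝ) y := by
    rcases h2 with rfl | h2
    · filter_upwards [ball_mem_nhds y₀ δ0] with y hy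
      refine key (hasFDerivAt_prodMk_left y 0) (mem hy h1) fun z Q' k1 k2 => ?_
      refine (hasFDerivAt_const (-S.lv z) y).congr_of_eventuallyEq ?_
      have hy' := (hδ _ (mem hy h1)).2
      filter_upwards [(Continuous.prodMk_left (0 : W)).continuousAt.eventually k1.eventually,
        hO.mem_nhds hy'] with y' k k'
      have k3 : S.pS (Q' (y', 0)) = 0 := (S.c_U z _ k.mem).1 (by
        rw [← k.eq0, base y' k', ← base y hy', ← k1.pt_eq k2]; rfl)
      have k4 := Tm.T_U z _ (mem_ball_zero_iff.2 ((S.norm_pU_le _).trans_lt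
        (mem_ball_zero_iff.1 k.mem)))
      rw [eq_iUe k3] at k4
      simp only [u, k4, sub_self, zero_sub]
    · filter_upwards [ball_mem_nhds y₀ δ0,
        (Continuous.prodMk_left s₁).continuousAt.eventually h2] with y hy k
      exact key (hasFDerivAt_prodMk_left y s₁) (mem hy h1) fun z Q' k1 k2 => by
        have := HasFDerivAt.comp (f := fun y => (y, s₁)) y (k z Q' k1 k2)
          (hasFDerivAt_prodMk_left y s₁)
        rwa [ContinuousLinearMap.zero_comp] at this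
  obtain ⟨r, r0, hr⟩ := Metric.eventually_nhds_iff_ball.1 k
  have k1 : ∀ᶠ p in 𝓝 (y₀, s₀), p ∈ ball (y₀, s₀) δ ∧ f p = f (y₀, s₁) := by
    filter_upwards [ball_mem_nhds _ δ0, continuous_fst.continuousAt.eventually
      (ball_mem_nhds y₀ r0)] with p p1 p2
    refine ⟨p1, ?_⟩
    rw [← ball_prod_same] at p1
    exact (hs p.1 p1.1 p.2 p1.2 s₁ h1).trans (isOpen_ball.is_const_of_fderiv_eq_zero
      (f := fun y => f (y, s₁)) (convex_ball _ _).isPreconnected
      (fun y hy => (hr y hy).differentiableAt.differentiableWithinAt)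
      (fun y hy => (hr y hy).fderiv) p2 (mem_ball_self r0))
  filter_upwards [k1.eventually_nhds] with p hp z Q' k2 k3
  have k4 := hp.self_of_nhds.1
  refine (Tm.shift u (hδ p k4).1 k2 k3 (hasFDerivAt_id p) rfl).2 ?_
  have k5 := (hψ p k4).const_sub (f (y₀, s₁))
  rw [ContinuousLinearMap.comp_id]
  refine k5.congr_of_eventuallyEq (hp.mono fun p' k => ?_)
  rw [← k.2]
  simp only [f, id, add_sub_cancel_right]

theorem stat (hO : IsOpen O) (base : ∀ y ∈ O, (P (y, 0)).1 = ξ)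
    (leaf : ∀ y ∈ O, ∀ s, (P (y, s)).2 = β y) (rep : ∀ y ∈ O, ∀ s, ∃ x Q, S.Rep P (y, s) x Q ∧
      ∀ u v, S.om (fderiv ℝ Q (y, s) u) (fderiv ℝ Q (y, s) v) = 0) {y : A} (hy : y ∈ O) (s : W) :
    Tm.Stat P (y, s) := by
  have k : IsClopen {s : W | ∀ᶠ p in 𝓝 (y, s), Tm.Stat P p} := by
    refine ⟨closure_subset_iff_isClosed.1 fun s₀ hs => ?_,
      isOpen_setOfPred_eventually_nhds.preimage (Continuous.prodMk_right y)⟩
    obtain ⟨δ, δ0, h⟩ := Tm.stat_step hO base leaf rep hy s₀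
    obtain ⟨s₁, h1, h2⟩ := Metric.mem_closure_iff.1 hs δ δ0
    exact h s₁ (mem_ball'.2 h2) (Or.inr h1)
  obtain ⟨δ, δ0, h⟩ := Tm.stat_step hO base leaf rep hy 0
  have k1 : s ∈ {s : W | ∀ᶠ p in 𝓝 (y, s), Tm.Stat P p} :=
    k.eq_univ ⟨0, h 0 (mem_ball_self δ0) (Or.inl rfl)⟩ ▸ mem_univ s
  exact k1.self_of_nhds

/-- along a curve in an unstable leaf the level is constant -/
theorem level {c c' : ℝ → A × W} {a₀ a₁ : ℝ} {ξ' : B}
    (h : ∀ t ∈ Icc a₀ a₁, HasDerivWithinAt c (c' t) (Icc a₀ a₁) t ∧ (P (c t)).1 = ξ' ∧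
      (∃ x Q, S.Rep P (c t) x Q) ∧ Tm.Stat P (c t)) : ∀ t ∈ Icc a₀ a₁,
    Tm.D (P (c t)) - Tm.D (P ((c t).1, 0)) = Tm.D (P (c a₀)) - Tm.D (P ((c a₀).1, 0)) := by
  have k : ∀ t ∈ Icc a₀ a₁, HasDerivWithinAt
      (fun t => Tm.D (P (c t)) - Tm.D (P ((c t).1, 0))) 0 (Icc a₀ a₁) t := fun t ht => by
    obtain ⟨h1, h2, ⟨x, Q, h3⟩, h4⟩ := h t ht
    obtain ⟨z, Q, k1, k2⟩ := h3.exists_centre
    have k3 := ((h4 z Q k1 k2).comp_hasDerivWithinAt t h1).add_const (S.lv z)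
    have k4 : ∀ᶠ t' in 𝓝[Icc a₀ a₁] t, Tm.T z (Q (c t')) = S.lv z := by
      filter_upwards [h1.continuousWithinAt.eventually k1.eventually, self_mem_nhdsWithin]
        with t' k k'
      have k5 : S.pS (Q (c t')) = 0 := (S.c_U z _ k.mem).1 (by
        rw [← k.eq0, (h t' k').2.1, ← h2, ← k1.pt_eq k2]; rfl)
      have k6 := Tm.T_U z _ (mem_ball_zero_iff.2 ((S.norm_pU_le _).trans_lt
        (mem_ball_zero_iff.1 k.mem)))
      rwa [eq_iUe k5] at k6
    refine k3.congr_of_eventuallyEq (k4.mono fun t' k => ?_) ?_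
    · simp only [Function.comp, k, sub_add_cancel]
    · simp only [Function.comp, k4.self_of_nhdsWithin ht, sub_add_cancel]
  intro t ht
  have := norm_image_sub_le_of_norm_deriv_le_segment' (C := 0) k (fun _ _ => norm_zero.le) t ht
  rwa [zero_mul, norm_le_zero_iff, sub_eq_zero] at this

end Tim

end Vale.Agent.P207Z
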