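import Vale.Agent.P207Z.End.Box
import Vale.Agent.P207Z.End.Lift
import Vale.Agent.P207Z.An.Glue

/-!
# P207: the final contradiction
-/

set_option linter.all false

open Set Filter Topology Metric
open scoped ContDiff

noncomputable section

namespace Vale.Agent.P207Z

variable {Γ X B E V : Type} [Group Γ] [Countable Γ] [MetricSpace X] [ProperSpace X]
  [MulAction Γ X] [IsIsometricSMul Γ X] [MeasurableSpace X] [BorelSpace X]
  [TopologicalSpace B] [CompactSpace B] [T2Space B] [SecondCountableTopology B] [MulAction Γ B]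
  [ContinuousConstSMul Γ B] [MeasurableSpace B] [BorelSpace B]
  [NormedAddCommGroup E] [InnerProductSpace ℝ E] [FiniteDimensional ℝ E]
  [NormedAddCommGroup V] [NormedSpace ℝ V] [FiniteDimensional ℝ V]
  {A K K' W : Type} [NormedAddCommGroup A] [NormedSpace ℝ A] [NormedAddCommGroup K]
  [NormedSpace ℝ K] [FiniteDimensional ℝ K] [NormedAddCommGroup K'] [NormedSpace ℝ K']
  [NormedAddCommGroup W] [NormedSpace ℝ W] [FiniteDimensional ℝ W] {S : Sys Γ X B E V}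

namespace Sys

/-- the coordinates in the chart of `x` -/
def crd (S : Sys Γ X B E V) (x : X) (P : A → B × B) (p : A) : V :=
  Function.invFunOn (S.c x) (ball 0 1) (P p)

theorem Rep.crd {P : A → B × B} {p : A} {x y : X} {Q : A → V} (h : S.Rep P p y Q) {z : V}
    (hz : z ∈ ball (0 : V) 1) (e : S.c x z = P p) : S.Rep P p x (S.crd x P) ∧ S.crd x P p = z := by
  have r := h.tr (mem_dom h.mem hz (e.trans h.eq0))
  have k : S.crd x P =ᶠ[𝓝 p] fun p' => S.τ y x (Q p') :=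
    h.eq.mono fun p' k => congrArg (Function.invFunOn (S.c x) (ball 0 1)) k
  refine ⟨⟨r.sm.congr_of_eventuallyEq k, k.self_of_nhds ▸ r.mem, ?_⟩,
    k.self_of_nhds.trans (τ_eq hz (e.trans h.eq0))⟩
  filter_upwards [r.eq, k] with p' k1 k2
  rw [k1, k2]

variable {L : ℕ} {P : (ℝ × K) × W → B × B} {O : Set (ℝ × K)} {σ₀ : ℝ} {ξ : B} {β : ℝ × K → B}
  {M : ℝ × K → W →L[ℝ] K →L[ℝ] ℝ} {G : Set ℝ}

namespace Fam

theorem lower (h : S.Fam L P O σ₀ ξ β M G) :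
    ∃ c, 0 ≤ c ∧ ∀ σ ∈ Icc 0 σ₀, ∀ e, ‖e‖ ≤ c * ‖M (σ, 0) e‖ := by
  have c1 : ContinuousOn M O := continuousOn_clm_apply.2 fun e => continuousOn_clm_apply.2
    fun k y hy => by
      obtain ⟨x, Q, r⟩ := h.ex hy 0
      have k1 := (hasFDerivAt_bil r.diff2 S.om (0, e) ((0, k), 0)).congr_of_eventuallyEq
        (f₁ := fun p => M p.1 e k) ((h.ev hy r).mono fun p hp => (h.om_κ hp.1 hp.2 e k).symm)
      exact (HasFDerivAt.comp (f := fun y => (y, (0 : W))) y k1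
        (hasFDerivAt_prodMk_left y 0)).continuousAt.continuousWithinAt
  have := FiniteDimensional.proper ℝ W
  obtain ⟨a, a0, ha⟩ := (isCompact_Icc.prod (isCompact_sphere (0 : W) 1)).exists_forall_le'
    (f := fun p : ℝ × W => ‖M (p.1, 0) p.2‖) (a := 0)
    (((c1.comp (by fun_prop) fun p hp => h.seg _ hp.1).clm_apply continuousOn_snd).norm)
    fun p hp => norm_pos_iff.2 fun k => by simpa [h.inj _ (h.seg _ hp.1) _ k] using hp.2
  refine ⟨a⁻¹, by positivity, fun σ hσ e => ?_⟩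
  rcases eq_or_ne e 0 with rfl | he
  · simp
  have k := ha (σ, ‖e‖⁻¹ • e) ⟨hσ, mem_sphere_zero_iff_norm.2 (norm_smul_inv_norm he)⟩
  rw [map_smul, norm_smul, norm_inv, norm_norm, le_inv_mul_iff₀ (norm_pos_iff.2 he)] at k
  rwa [le_inv_mul_iff₀ a0, mul_comm]

theorem apriori (h : S.Fam L P O σ₀ ξ β M G) {x : X} {Pr : V → V →L[ℝ] V} {g : V → K'}
    {N : Set V} {C : ℝ} (hC : 0 ≤ C) (hB : S.Box g N C) (hg : ∀ z ∈ N, ContDiffAt ℝ 2 g z ∧
      (S.pS z = 0 → Flat 1 (fun q => fderiv ℝ g q ∘L Pr q) z))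
    {s a : ℝ → W} {σ₁ σ₂ : ℝ} (h0 : 0 ≤ σ₁) (h1 : σ₁ ≤ σ₂) (h2 : σ₂ ≤ σ₀)
    (hs : ∀ t ∈ Icc σ₁ σ₂, HasDerivWithinAt s (a t) (Icc σ₁ σ₂) t ∧ ∃ z ∈ N, z ∈ ball (0 : V) 1 ∧
      S.pS z = 0 ∧ S.c x z = P ((t, 0), s t) ∧ ∀ σ ∈ G ∩ Icc 0 σ₀, ∀ s Q, S.Rep P ((σ, 0), s) x Q →
        Q ((σ, 0), s) = z → ∀ r e,
          Flat 1 (fun p => cmp Pr (Q p) (fderiv ℝ Q p ((r, 0), e))) ((σ, 0), s)) :
    ‖M (σ₂, 0) (s σ₂)‖ ≤ ‖M (σ₁, 0) (s σ₁)‖ +
      C * ‖fderiv ℝ (fun p => g (S.crd x P p)) ((σ₁, 0), s σ₁)‖ := by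
  rcases h1.eq_or_lt with rfl | h3
  · exact le_add_of_nonneg_right (by positivity)
  set Q := S.crd x P
  set R := fun p => g (Q p)
  set c : ℝ → (ℝ × K) × W := fun t => ((t, 0), s t)
  have sub : Icc σ₁ σ₂ ⊆ Icc 0 σ₀ := Icc_subset_Icc h0 h2
  have dc : ∀ t ∈ Icc σ₁ σ₂, HasDerivWithinAt c ((1, 0), a t) (Icc σ₁ σ₂) t := fun t ht =>
    ((hasDerivWithinAt_id t _).prodMk (hasDerivWithinAt_const t _ 0)).prodMk (hs t ht).1
  have r : ∀ t ∈ Icc σ₁ σ₂, S.Rep P (c t) x Q ∧ Q (c t) ∈ N ∧ S.pS (Q (c t)) = 0 ∧ (t ∈ G →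
      ∀ r e, Flat 1 (fun p => cmp Pr (Q p) (fderiv ℝ Q p ((r, 0), e))) (c t)) := fun t ht => by
    obtain ⟨-, z, z1, z2, z3, z4, z5⟩ := hs t ht
    obtain ⟨y, Q', k⟩ := h.ex (h.seg t (sub ht)) (s t)
    obtain ⟨k1, k2⟩ := k.crd z2 z4
    have k3 : Q (c t) = z := k2
    exact ⟨k1, k3 ▸ z1, k3 ▸ z3, fun hG => z5 t ⟨hG, sub ht⟩ _ _ k1 k2⟩
  have sR : ∀ t ∈ Icc σ₁ σ₂, ContDiffAt ℝ 2 R (c t) := fun t ht =>
    (hg _ (r t ht).2.1).1.comp _ (r t ht).1.sm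
  have dR : ∀ t ∈ Icc σ₁ σ₂, ∀ᶠ p in 𝓝 (c t), fderiv ℝ R p = fderiv ℝ g (Q p) ∘L fderiv ℝ Q p :=
    fun t ht => by
      filter_upwards [(r t ht).1.eventually, (r t ht).1.diff.continuousAt.eventually
        ((hg _ (r t ht).2.1).1.eventually (by simp))] with p k1 k2
      exact fderiv_comp p (k2.differentiableAt (by simp)) k1.diff
  have d2 : ∀ t ∈ Icc σ₁ σ₂, ContDiffAt ℝ 1 (fderiv ℝ R) (c t) := fun t ht =>
    (sR t ht).fderiv_right (by norm_num)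
  have tan : ∀ r' e d, EqOn (fun t => (fderiv ℝ R (c t) ((r', 0), e),
      fderiv ℝ (fderiv ℝ R) (c t) d ((r', 0), e))) (fun _ => 0) (Icc σ₁ σ₂) := fun r' e d => by
    refine EqOn.of_subset_closure (s := Ioo σ₁ σ₂ ∩ (G ∩ Icc 0 σ₀)) (fun t ht => ?_)
      (fun t ht => ?_) continuousOn_const (inter_subset_left.trans Ioo_subset_Icc_self) ?_
    · have ht' := Ioo_subset_Icc_self ht.1
      obtain ⟨k1, k2, k3, k4⟩ := r t ht'
      have k5 : Flat 1 (fun p => fderiv ℝ R p ((r', 0), e)) (c t) :=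
        ((((((hg _ k2).2 k3).comp k1.diff).apply (k1.diff2.continuousAt.clm_apply
          (continuousAt_const (y := ((r', 0), e))))).add ((k4 ht.2.1 r' e).bilin_right
          (ContinuousLinearMap.id ℝ (V →L[ℝ] K')) ((((hg _ k2).1.fderiv_right (m := 0)
            (by norm_num)).continuousAt).comp k1.diff.continuousAt)))).congr
          ((dR t ht').mono fun p k => by simp [k, cmp])
      have k6 := DFunLike.congr_fun ((((d2 t ht').differentiableAt one_ne_zero).hasFDerivAt.clm_apply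
        (hasFDerivAt_const ((r', 0), e) _)).unique k5.hasFDerivAt_zero) d
      exact Prod.ext k5.eq_zero (by simpa using k6)
    · exact (((d2 t ht).continuousAt.clm_apply continuousAt_const).prodMk
        (((((d2 t ht).fderiv_right (m := 0) (by norm_num)).continuousAt).clm_apply
          continuousAt_const).clm_apply continuousAt_const)).comp_continuousWithinAt
        (dc t ht).continuousWithinAt
    · rw [← closure_Ioo h3.ne]
      exact closure_minimal (fun t ht => isOpen_Ioo.inter_closure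
        ⟨ht, h.dense (sub (Ioo_subset_Icc_self ht))⟩) isClosed_closure
  refine ContinuousLinearMap.opNorm_le_bound _ (by positivity) fun k => ?_
  have k1 := norm_image_sub_le_of_norm_deriv_le_segment' (C := 0)
    (f := fun t => fderiv ℝ R (c t) ((0, k), 0)) (f' := fun _ => 0) (fun t ht =>
      ((((d2 t ht).differentiableAt one_ne_zero).hasFDerivAt.comp_hasDerivWithinAt t
        (dc t ht)).clm_apply (hasDerivWithinAt_const t _ _)).congr_deriv (by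
          rw [map_zero, add_zero, ((sR t ht).isSymmSndFDerivAt (by simp)).eq]
          exact congrArg Prod.snd (tan 1 (a t) _ ht))) fun _ _ => norm_zero.le
  have k2 := hB (fun t => Q (c t)) (fun t => fderiv ℝ Q (c t) ((1, 0), a t))
    (fun t => fderiv ℝ Q (c t) ((0, k), 0)) (fun t => M (t, 0) (s t) k)
    (fderiv ℝ R (c σ₁) ((0, k), 0)) σ₁ σ₂ h1 fun t ht => by
      have e := (dR t ht).self_of_nhds
      refine ⟨(r t ht).2.1, (r t ht).2.2.1,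
        (r t ht).1.diff.hasFDerivAt.comp_hasDerivWithinAt t (dc t ht),
        (DFunLike.congr_fun e _).symm.trans (congrArg Prod.fst (tan 1 (a t) 0 ht)),
        (DFunLike.congr_fun e _).symm.trans ?_,
        h.mom (h.seg t (sub ht)) (hs t ht).1 ht (r t ht).1 k⟩
      simpa [sub_eq_zero] using k1 t ht
  have k3 := (fderiv ℝ R (c σ₁)).le_opNorm ((0, k), 0)
  have k4 := (M (σ₁, 0) (s σ₁)).le_opNorm k
  have k5 := norm_sub_norm_le (M (σ₂, 0) (s σ₂) k) (M (σ₁, 0) (s σ₁) k)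
  rw [show ‖(((0, k), 0) : (ℝ × K) × W)‖ = ‖k‖ by simp] at k3
  have k6 := mul_le_mul_of_nonneg_left k3 hC
  rw [← Real.norm_eq_abs] at k2
  linarith

variable {m : ℕ} {b : Module.Basis (Fin m) ℝ E} {Mg : Marg S b}

theorem stat (h : S.Fam L P O σ₀ ξ β M G) (Tm : Tim S Mg) {σ : ℝ} (hσ : ((σ, 0) : ℝ × K) ∈ O)
    (s : W) : Tm.Stat (fun p : ℝ × W => P ((p.1, 0), p.2)) (σ, s) := by
  let ι : ℝ × W →L[ℝ] (ℝ × K) × W :=
    (ContinuousLinearMap.inl ℝ ℝ K).prodMap (ContinuousLinearMap.id ℝ W)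
  refine Tm.stat (O := {σ | ((σ, 0) : ℝ × K) ∈ O}) (ξ := ξ) (β := fun σ => β (σ, 0))
    (h.isOpen.preimage (by fun_prop)) (fun σ => h.base _) (fun σ => h.leaf _)
    (fun σ hσ s => ?_) hσ s
  obtain ⟨x, Q, r⟩ := h.ex hσ s
  refine ⟨x, fun p => Q (ι p), Rep.comp (ι := ι) (p' := (σ, s)) r ι.contDiff.contDiffAt,
    fun u v => ?_⟩
  have e : ∀ u : ℝ × W, fderiv ℝ (fun p => Q (ι p)) (σ, s) u = u.1 •
      fderiv ℝ Q ((σ, 0), s) ((1, 0), 0) + fderiv ℝ Q ((σ, 0), s) (0, u.2) := fun u => by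
    rw [← map_smul, ← map_add]
    refine (DFunLike.congr_fun (HasFDerivAt.comp (f := ι) (σ, s) r.diff.hasFDerivAt
      ι.hasFDerivAt).fderiv u).trans (congrArg (fderiv ℝ Q ((σ, 0), s)) ?_)
    simp [ι]
  have k1 := S.om_antie (fderiv ℝ Q ((σ, 0), s) ((1, 0), 0)) (fderiv ℝ Q ((σ, 0), s) ((1, 0), 0))
  have k2 := S.om_antie (fderiv ℝ Q ((σ, 0), s) ((1, 0), 0)) (fderiv ℝ Q ((σ, 0), s) (0, v.2))
  rw [h.om_σ hσ r, neg_zero] at k2
  simp only [e, map_add, map_smul, ContinuousLinearMap.add_apply, ContinuousLinearMap.smul_apply,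
    k2, h.om_σ hσ r, h.om_s hσ r, self_eq_neg.1 k1, smul_zero, add_zero]

theorem cont_β (h : S.Fam L P O σ₀ ξ β M G) {σ : ℝ} (hσ : ((σ, 0) : ℝ × K) ∈ O) :
    ContinuousAt (fun σ : ℝ => β (σ, 0)) σ := by
  obtain ⟨x, Q, r⟩ := h.ex hσ 0
  refine (continuousAt_snd.comp (ContinuousAt.comp (f := fun σ : ℝ => (((σ, 0), 0) : (ℝ × K) × W))
    r.cont (by fun_prop))).congr ?_
  exact ((by fun_prop : ContinuousAt (fun σ : ℝ => ((σ, 0) : ℝ × K)) σ).eventually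
    (h.isOpen.mem_nhds hσ)).mono fun σ' k => h.leaf _ k 0

/-- continuation along the curve, in one chart -/
theorem step (h : S.Fam L P O σ₀ ξ β M G) (hL : 1 ≤ L) (Tm : Tim S Mg) {x : X}
    {Pr : V → V →L[ℝ] V} {ξ' : B} {σ : ℝ} (hσ : σ ∈ Icc 0 σ₀) (hx : S.pt x = (ξ', β (σ, 0)))
    (hZ : S.ZU L Pr) (ht : ∀ᶠ z in 𝓝 (0 : V), S.pS z = 0 → ∀ σ ∈ G ∩ Icc 0 σ₀, ∀ s Q,
      S.Rep P ((σ, 0), s) x Q → Q ((σ, 0), s) = z → ∀ r e,
        Flat 1 (fun p => cmp Pr (Q p) (fderiv ℝ Q p ((r, 0), e))) ((σ, 0), s)) :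
    ∃ δ > 0, ∀ σ₁ σ₂, 0 ≤ σ₁ → σ₁ ≤ σ₂ → σ₂ ≤ σ₀ → Icc σ₁ σ₂ ⊆ ball σ δ → ∀ s₁,
      (P ((σ₁, 0), s₁)).1 = ξ' → ∃ s₂, (P ((σ₂, 0), s₂)).1 = ξ' ∧
        Tm.D (P ((σ₂, 0), s₂)) - Tm.D (P ((σ₂, 0), 0)) =
          Tm.D (P ((σ₁, 0), s₁)) - Tm.D (P ((σ₁, 0), 0)) := by
  obtain ⟨k₁, k₂, g, C, C0, N, hN, hB, hg⟩ := hZ.box hL
  obtain ⟨a, ac, ha⟩ := h.exists_vel
  obtain ⟨c, c0, hc⟩ := h.lower
  obtain ⟨ε, ε0, hε⟩ := Metric.eventually_nhds_iff_ball.1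
    (ht.and (Eventually.and hN (ball_mem_nhds (0 : V) one_pos)))
  obtain ⟨δ, δ0, hδ⟩ := Metric.eventually_nhds_iff_ball.1
    ((continuousAt_const.prodMk (h.cont_β (h.seg σ hσ))).eventually
      ((S.open_c x isOpen_ball fun z hz => (hε z hz).2.2).mem_nhds
        ⟨0, mem_ball_self ε0, (S.c_zero' x).trans hx⟩))
  refine ⟨δ, δ0, fun σ₁ σ₂ h0 h1 h2 hb s₁ e => ?_⟩
  set R := c * (‖M (σ₁, 0) s₁‖ + C * ‖fderiv ℝ (fun p => g (S.crd x P p)) ((σ₁, 0), s₁)‖)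
  have R0 : 0 < R + 1 := by positivity
  have := FiniteDimensional.proper ℝ W
  obtain ⟨Ca, hCa⟩ := (isCompact_Icc.prod (isCompact_closedBall (0 : W) (R + 1))
    ).exists_bound_of_continuousOn (ac.mono (prod_mono_right (subset_univ _)))
  let ρ : W → W := fun s => ((R + 1) / max (R + 1) ‖s‖) • s
  have ρ0 : ∀ s : W, 0 < max (R + 1) ‖s‖ := fun s => R0.trans_le (le_max_left _ _)
  have ρ1 : Continuous ρ :=
    (continuous_const.div (continuous_const.max continuous_norm) fun s => (ρ0 s).ne').smul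
      continuous_id
  have ρ2 : ∀ s, ρ s ∈ closedBall (0 : W) (R + 1) := fun s => by
    rw [mem_closedBall_zero_iff, norm_smul, Real.norm_of_nonneg (div_pos R0 (ρ0 s)).le,
      div_mul_eq_mul_div, div_le_iff₀ (ρ0 s)]
    exact mul_le_mul_of_nonneg_left (le_max_right _ _) R0.le
  have ρ3 : ∀ s, ‖s‖ ≤ R + 1 → ρ s = s := fun s hs => by
    simp only [ρ, max_eq_left hs, div_self R0.ne', one_smul]
  have mem : ∀ t ∈ Icc 0 (σ₂ - σ₁), t + σ₁ ∈ Icc 0 σ₀ := fun t ht =>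
    ⟨by linarith [ht.1], by linarith [ht.2]⟩
  obtain ⟨s', e0, hs'⟩ := An.peano (a := fun t s => a (t + σ₁) (ρ s)) (T := σ₂ - σ₁) (M := Ca)
    (ac.comp (f := fun p : ℝ × W => (p.1 + σ₁, ρ p.2)) (by fun_prop)
      fun p hp => ⟨mem _ hp.1, mem_univ _⟩) (fun t ht s => hCa (_, _) ⟨mem t ht, ρ2 s⟩) s₁
  set s : ℝ → W := fun t => s' (t - σ₁)
  have e1 : s σ₁ = s₁ := by simp only [s, sub_self, e0]
  have ds : ∀ t ∈ Icc σ₁ σ₂, HasDerivWithinAt s (a t (ρ (s t))) (Icc σ₁ σ₂) t := fun t ht => by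
    have m : MapsTo (fun t => t - σ₁) (Icc σ₁ σ₂) (Icc 0 (σ₂ - σ₁)) := fun t ht =>
      ⟨by linarith [ht.1], by linarith [ht.2]⟩
    have k := (hs' _ (m ht)).scomp t ((hasDerivWithinAt_id t _).sub_const σ₁) m
    rwa [one_smul, sub_add_cancel] at k
  have sol : ∀ t ∈ Icc σ₁ σ₂, (∀ t' ∈ Icc σ₁ t, ‖s t'‖ ≤ R + 1) → (P ((t, 0), s t)).1 = ξ' ∧
      Tm.D (P ((t, 0), s t)) - Tm.D (P ((t, 0), 0)) =
        Tm.D (P ((σ₁, 0), s₁)) - Tm.D (P ((σ₁, 0), 0)) ∧ ‖s t‖ ≤ R := fun t ht hR => by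
    have sub : Icc σ₁ t ⊆ Icc σ₁ σ₂ := Icc_subset_Icc_right ht.2
    have sub' : Icc σ₁ t ⊆ Icc 0 σ₀ := Icc_subset_Icc h0 (ht.2.trans h2)
    have d1 : ∀ t' ∈ Icc σ₁ t, HasDerivWithinAt s (a t' (s t')) (Icc σ₁ t) t' := fun t' k => by
      simpa only [ρ3 _ (hR t' k)] using (ds t' (sub k)).mono sub
    have k1 := cu (P := P) (c := fun t => ((t, 0), s t)) (c' := fun t => ((1, 0), a t (s t)))
      (C₀ := max 1 Ca) fun t' k => ⟨((hasDerivWithinAt_id t' _).prodMk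
        (hasDerivWithinAt_const t' _ 0)).prodMk (d1 t' k), max_le_max (by simp)
        (hCa (_, _) ⟨sub' k, mem_closedBall_zero_iff.2 (hR t' k)⟩),
        h.ex (h.seg _ (sub' k)) _, ha t' (sub' k) _⟩
    simp only [e1, e] at k1
    have k2 := Tm.level (P := fun p : ℝ × W => P ((p.1, 0), p.2)) (c := fun t => (t, s t))
      (c' := fun t => (1, a t (s t))) (ξ' := ξ') (fun t' k => ⟨(hasDerivWithinAt_id t' _).prodMk
        (d1 t' k), k1 t' k, by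
          obtain ⟨y, Q, r⟩ := h.ex (h.seg _ (sub' k)) (s t')
          exact ⟨y, _, Rep.comp (ι := fun p : ℝ × W => ((p.1, 0), p.2)) (p' := (t', s t')) r
            (by fun_prop)⟩, h.stat Tm (h.seg _ (sub' k)) _⟩) t (right_mem_Icc.2 ht.1)
    have k3 := h.apriori C0 hB hg h0 ht.1 (ht.2.trans h2) (x := x) fun t' k => ⟨d1 t' k, by
      obtain ⟨z, z1, z2⟩ := hδ t' (hb (sub k))
      have z3 : S.pS z = 0 := (S.c_U x z (hε z z1).2.2).1
        ((congrArg Prod.fst z2).trans (congrArg Prod.fst hx).symm)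
      exact ⟨z, (hε z z1).2.1, (hε z z1).2.2, z3, z2.trans
        (Prod.ext (k1 t' k).symm (h.leaf _ (h.seg _ (sub' k)) _).symm), (hε z z1).1 z3⟩⟩
    simp only [e1] at k2 k3
    exact ⟨k1 t (right_mem_Icc.2 ht.1), k2, (hc t (sub' (right_mem_Icc.2 ht.1)) _).trans
      (mul_le_mul_of_nonneg_left k3 c0)⟩
  have cs : ContinuousOn (fun t => ‖s t‖) (Icc σ₁ σ₂) := fun t ht =>
    (ds t ht).continuousWithinAt.norm
  have key : Icc σ₁ σ₂ ⊆ (fun t => ‖s t‖) ⁻¹' Iic (R + 1) := by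
    refine IsClosed.Icc_subset_of_forall_mem_nhdsGT_of_Icc_subset
      (inter_comm _ _ ▸ cs.preimage_isClosed_of_isClosed isClosed_Icc isClosed_Iic) ?_
      fun t ht k => nhdsWithin_le_of_mem (Icc_mem_nhdsGT_of_mem ht)
        ((cs t (Ico_subset_Icc_self ht)).preimage_mem_nhdsWithin (Iic_mem_nhds
          ((sol t (Ico_subset_Icc_self ht) k).2.2.trans_lt (lt_add_one R))))
    refine (hc σ₁ ⟨h0, h1.trans h2⟩ _).trans (le_trans ?_ (le_add_of_nonneg_right zero_le_one))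
    rw [e1]
    exact mul_le_mul_of_nonneg_left (le_add_of_nonneg_right (by positivity)) c0
  exact ⟨s σ₂, (sol σ₂ (right_mem_Icc.2 h1) key).1, (sol σ₂ (right_mem_Icc.2 h1) key).2.1⟩

theorem val (h : S.Fam L P O σ₀ ξ β M G) {y : ℝ × K} (hy : y ∈ O) {s : W} {ξ' : B}
    (e : (P (y, s)).1 = ξ') : P (y, s) = (ξ', β y) ∧ ξ' ≠ β y := by
  obtain ⟨x, Q, r⟩ := h.ex hy s
  exact ⟨Prod.ext e (h.leaf y hy s), e ▸ h.leaf y hy s ▸ r.ne⟩

end Fam

end Sys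

/-- **The realised family cannot exist.** -/
theorem end_false {m : ℕ} {b : Module.Basis (Fin m) ℝ E} {Mg : Marg S b} (Tm : Tim S Mg) {L : ℕ}
    (hL : 1 ≤ L) {P : (ℝ × K) × W → B × B} {O : Set (ℝ × K)} {σ₀ : ℝ} {ξ : B} {β : ℝ × K → B}
    {M : ℝ × K → W →L[ℝ] K →L[ℝ] ℝ} {G : Set ℝ} (h : S.Fam L P O σ₀ ξ β M G) : False := by
  have cD : ∀ {p : B × B}, p.1 ≠ p.2 → ContinuousAt Tm.D p := fun hp =>
    Tm.D_cont.continuousAt (isClosed_diagonal.isOpen_compl.mem_nhds hp)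
  have o0 : (0 : ℝ × K) ∈ O := h.seg 0 (left_mem_Icc.2 h.pos.le)
  have bs : ∀ σ ∈ Icc 0 σ₀, P ((σ, 0), 0) = (ξ, β (σ, 0)) ∧ ξ ≠ β (σ, 0) := fun σ hσ =>
    h.val (h.seg σ hσ) (h.base _ (h.seg σ hσ))
  set c := Tm.D (β 0, β (σ₀, 0)) - 1
  obtain ⟨s₀, ⟨n1, n2⟩, hf⟩ := h.far _ ((((cD (p := (β 0, β (σ₀, 0))) h.ne.symm).comp
    (f := fun ζ => (ζ, β (σ₀, 0))) (Continuous.prodMk_left _).continuousAt).eventually (Ioi_mem_nhds (sub_one_lt _))).and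
    ((Continuous.prodMk_left (β 0)).continuousAt.eventually
      (Tm.D_diag (β 0) (c - Tm.D (ξ, β (σ₀, 0)) + Tm.D (ξ, β 0)))))
  set ξ' := (P (0, s₀)).1
  set u := Tm.D (P (0, s₀)) - Tm.D (P (0, 0))
  set J := {σ ∈ Icc 0 σ₀ | ∃ s, (P ((σ, 0), s)).1 = ξ' ∧
    Tm.D (P ((σ, 0), s)) - Tm.D (P ((σ, 0), 0)) = u}
  have J0 : J.Nonempty := ⟨0, left_mem_Icc.2 h.pos.le, s₀, rfl, rfl⟩
  have J1 : BddAbove J := ⟨σ₀, fun σ hσ => hσ.1.2⟩
  have J2 : ∀ σ ∈ J, ξ' ≠ β (σ, 0) ∧ Tm.D (ξ', β (σ, 0)) - Tm.D (ξ, β (σ, 0)) = u := by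
    rintro σ ⟨hσ, s, k1, k2⟩
    obtain ⟨k3, k4⟩ := h.val (h.seg σ hσ) k1
    exact ⟨k4, by rwa [k3, (bs σ hσ).1] at k2⟩
  have J3 := csSup_mem_closure J0 J1
  have J4 : sSup J ∈ Icc 0 σ₀ := closure_minimal (fun σ hσ => hσ.1) isClosed_Icc J3
  have cβ := h.cont_β (h.seg _ J4)
  have J5 : β (sSup J, 0) ≠ ξ' := fun e => by
    have := mem_closure_iff_nhdsWithin_neBot.1 J3
    have k1 := ((cD (p := (ξ, β (sSup J, 0))) (bs _ J4).2).comp (f := fun σ => (ξ, β (σ, 0)))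
      (continuousAt_const.prodMk cβ)).eventually (Ioi_mem_nhds (sub_one_lt _))
    have k2 := ((tendsto_const_nhds (x := ξ')).prodMk_nhds (cβ.tendsto.trans_eq
      (congrArg 𝓝 e))).eventually (Tm.D_diag ξ' (Tm.D (ξ, β (sSup J, 0)) - 1 + u))
    obtain ⟨σ, ⟨k3, k4⟩, k5⟩ := (((k1.and k2).filter_mono nhdsWithin_le_nhds).and
      (self_mem_nhdsWithin (s := J))).exists
    have k6 := k4 (J2 σ k5).1
    have k7 := (J2 σ k5).2
    simp only [Function.comp] at k3 k6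
    linarith
  obtain ⟨x, Pr, x1, x2, x3⟩ := hf _ J5
  obtain ⟨δ, δ0, hδ⟩ := h.step hL Tm J4 x1 x2 x3
  obtain ⟨σ₁, ⟨a1, s₁, a2, a3⟩, a4⟩ := Metric.mem_closure_iff.1 J3 δ δ0
  have a5 : σ₁ ≤ sSup J := le_csSup J1 ⟨a1, s₁, a2, a3⟩
  have a6 : σ₁ ≤ min (sSup J + δ / 2) σ₀ := le_min (by linarith) a1.2
  obtain ⟨s₂, b1, b2⟩ := hδ σ₁ _ a1.1 a6 (min_le_right _ _) (fun t ht => by
    rw [Real.dist_eq, abs_lt] at a4
    rw [mem_ball, Real.dist_eq, abs_lt]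
    constructor <;> linarith [ht.1, ht.2.trans (min_le_left _ _)]) s₁ a2
  have b3 : min (sSup J + δ / 2) σ₀ ∈ J := ⟨⟨a1.1.trans a6, min_le_right _ _⟩, s₂, b1, b2.trans a3⟩
  rw [min_eq_right (not_lt.1 fun k => by
    have := le_csSup J1 b3
    rw [min_eq_left k.le] at this
    linarith)] at b3
  have b4 := (J2 _ b3).2
  have b5 := J2 0 ⟨left_mem_Icc.2 h.pos.le, s₀, rfl, rfl⟩
  have b6 := n2 b5.1
  have b7 := b5.2
  simp only [Function.comp, Prod.mk_zero_zero] at n1 b6 b7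
  linarith

end Vale.Agent.P207Z
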