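import Vale.Agent.P207Z.End.Defs
import Vale.Agent.P207Z.Dyn

/-!
# P207: maps into the space of geodesics read in charts; curves tangent to the unstable spaces
-/

set_option linter.all false

open Set Filter Topology Metric
open scoped ContDiff

noncomputable section

namespace Vale.Agent.P207Z

variable {Γ X B E V : Type} [Group Γ] [Countable Γ] [MetricSpace X] [ProperSpace X]
  [MulAction Γ X] [IsIsometricSMul Γ X] [MeasurableSpace X] [BorelSpace X]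
  [TopologicalSpace B] [CompactSpace B] [T2Space B] [SecondCountableTopology B] [MulAction Γ B]
  [ContinuousConstSMul Γ B] [MeasurableSpace B] [BorelSpace B]
  [NormedAddCommGroup E] [InnerProductSpace ℝ E] [FiniteDimensional ℝ E]
  [NormedAddCommGroup V] [NormedSpace ℝ V] [FiniteDimensional ℝ V]
  {A A' : Type} [NormedAddCommGroup A] [NormedSpace ℝ A] [NormedAddCommGroup A'] [NormedSpace ℝ A']

namespace Sys

variable {S : Sys Γ X B E V} {P : A → B × B} {p : A} {x y : X} {Q Q' : A → V}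

theorem cont_c (S : Sys Γ X B E V) (x : X) : ContinuousOn (S.c x) (ball 0 1) :=
  S.c_cont.comp (f := fun q : V => (x, q)) (by fun_prop) fun _ hq => ⟨mem_univ _, hq⟩

theorem open_c (S : Sys Γ X B E V) (x : X) {O : Set V} (hO : IsOpen O) (h : O ⊆ ball 0 1) :
    IsOpen (S.c x '' O) :=
  (S.c_open O hO h).preimage (f := fun p : B × B => (x, p)) (by fun_prop)

theorem Rep.eq0 (h : S.Rep P p x Q) : P p = S.c x (Q p) := h.eq.self_of_nhds

theorem Rep.diff (h : S.Rep P p x Q) : DifferentiableAt ℝ Q p := h.sm.differentiableAt (by simp)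

theorem Rep.ev_mem (h : S.Rep P p x Q) : ∀ᶠ p' in 𝓝 p, Q p' ∈ ball (0 : V) 1 :=
  h.diff.continuousAt.eventually (isOpen_ball.mem_nhds h.mem)

theorem Rep.eventually (h : S.Rep P p x Q) : ∀ᶠ p' in 𝓝 p, S.Rep P p' x Q := by
  filter_upwards [h.sm.eventually (by simp), h.ev_mem, h.eq.eventually_nhds] with p' h1 h2 h3
  exact ⟨h1, h2, h3⟩

theorem Rep.cont (h : S.Rep P p x Q) : ContinuousAt P p :=
  (((S.cont_c x).continuousAt (isOpen_ball.mem_nhds h.mem)).comp h.diff.continuousAt).congr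
    (h.eq.mono fun _ h => h.symm)

theorem Rep.ne (h : S.Rep P p x Q) : (P p).1 ≠ (P p).2 := h.eq0 ▸ S.c_ne x _ h.mem

/-- the second derivative -/
theorem Rep.diff2 (h : S.Rep P p x Q) :
    HasFDerivAt (fderiv ℝ Q) (fderiv ℝ (fderiv ℝ Q) p) p :=
  ((h.sm.fderiv_right (m := 1) (by norm_num)).differentiableAt (by simp)).hasFDerivAt

theorem Rep.symm2 (h : S.Rep P p x Q) (u v : A) :
    fderiv ℝ (fderiv ℝ Q) p u v = fderiv ℝ (fderiv ℝ Q) p v u :=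
  (h.sm.isSymmSndFDerivAt (by simp)).eq u v

theorem Rep.tr (h : S.Rep P p x Q) (hd : Q p ∈ S.dom x y) :
    S.Rep P p y fun p' => S.τ x y (Q p') := by
  refine ⟨((contDiffAt_τ hd).of_le (WithTop.coe_le_coe.2 (le_top (a := (2 : ℕ∞))))).comp p h.sm, τ_ball hd, ?_⟩
  filter_upwards [h.eq, h.diff.continuousAt.eventually (dom_nhds hd)] with p' h1 h2
  rw [h1, c_τ h2]

theorem Rep.dom (h : S.Rep P p x Q) (h' : S.Rep P p y Q') : Q p ∈ S.dom x y :=
  mem_dom h.mem h'.mem (h'.eq0.symm.trans h.eq0)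

theorem Rep.evEq (h : S.Rep P p x Q) (h' : S.Rep P p y Q') :
    Q' =ᶠ[𝓝 p] fun p' => S.τ x y (Q p') := by
  filter_upwards [h.eventually, h'.eventually] with p' h1 h2
  exact (τ_eq h2.mem (h2.eq0.symm.trans h1.eq0)).symm

theorem Rep.unique (h : S.Rep P p x Q) (h' : S.Rep P p x Q') : Q' =ᶠ[𝓝 p] Q := by
  filter_upwards [h.evEq h', h.ev_mem] with p' h1 h2
  rw [h1, τ_self h2]

theorem Rep.fderiv_eq (h : S.Rep P p x Q) (h' : S.Rep P p y Q') (u : A) :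
    fderiv ℝ Q' p u = fderiv ℝ (S.τ x y) (Q p) (fderiv ℝ Q p u) := by
  rw [(h.evEq h').fderiv_eq]
  exact congrArg (· u) (fderiv_comp p (differentiableAt_τ (h.dom h')) h.diff)

theorem Rep.om_eq (h : S.Rep P p x Q) (h' : S.Rep P p y Q') (u v : A) :
    S.om (fderiv ℝ Q' p u) (fderiv ℝ Q' p v) = S.om (fderiv ℝ Q p u) (fderiv ℝ Q p v) := by
  rw [h.fderiv_eq h', h.fderiv_eq h', om_τ (h.dom h')]

theorem ball_zero : (0 : V) ∈ ball (0 : V) 1 := mem_ball_self one_pos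

theorem dom_of_pt {q : V} (hq : q ∈ ball (0 : V) 1) (h : S.pt y = S.c x q) :
    q ∈ S.dom x y ∧ S.τ x y q = 0 :=
  ⟨mem_dom hq ball_zero ((S.c_zero' y).trans h), τ_eq ball_zero ((S.c_zero' y).trans h)⟩

/-- the chart centred at the point -/
theorem Rep.centre (h : S.Rep P p x Q) (hy : S.pt y = P p) :
    (S.Rep P p y fun p' => S.τ x y (Q p')) ∧ S.τ x y (Q p) = 0 :=
  ⟨h.tr (dom_of_pt h.mem (hy.trans h.eq0)).1, (dom_of_pt h.mem (hy.trans h.eq0)).2⟩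

theorem Rep.exists_centre (h : S.Rep P p x Q) : ∃ y Q', S.Rep P p y Q' ∧ Q' p = 0 := by
  obtain ⟨y, hy, -⟩ := S.exists_frame_lv h.ne 0
  exact ⟨y, _, h.centre hy⟩

theorem Rep.pt_eq (h : S.Rep P p x Q) (h0 : Q p = 0) : S.pt x = P p := by
  rw [h.eq0, h0, c_zero']

theorem Rep.comp {ι : A' → A} {p' : A'} (h : S.Rep P (ι p') x Q) (hι : ContDiffAt ℝ 2 ι p') :
    S.Rep (fun a => P (ι a)) p' x fun a => Q (ι a) :=
  ⟨h.sm.comp p' hι, h.mem, hι.continuousAt.eventually h.eq⟩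

theorem eq_iUe {v : V} (h : S.pS v = 0) : S.iU (S.pU v) = v := by
  have := S.iS_add v
  rwa [h, map_zero, zero_add] at this

theorem eq_iSe {v : V} (h : S.pU v = 0) : S.iS (S.pS v) = v := by
  have := S.iS_add v
  rwa [h, map_zero, add_zero] at this

variable (S) in
/-- the derivative of `P` at `p` in the direction `w` is unstable -/
def TanU (P : A → B × B) (p w : A) : Prop :=
  ∀ x Q, S.Rep P p x Q → Q p = 0 → S.pS (fderiv ℝ Q p w) = 0

theorem Rep.tanU {w : A} (h : S.Rep P p x Q) (h0 : Q p = 0) (hw : S.pS (fderiv ℝ Q p w) = 0) :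
    S.TanU P p w := fun y Q' h' h0' => by
  have he : S.em x = S.em y := congrArg Prod.fst ((h.pt_eq h0).trans (h'.pt_eq h0').symm)
  rw [h.fderiv_eq h', ← eq_iUe hw]
  exact pS_fderiv_τ he (h.dom h') (by rw [h0, map_zero]) _

/-! ### curves tangent to the unstable spaces -/

theorem lv_bd {f : X → ℝ} (hf : Continuous f) {R : X → X → Prop}
    (hs : ∀ (g : Γ) x y, R x y → f (g • x) - f (g • y) = f x - f y) (S : Sys Γ X B E V) (D : ℝ) :
    ∃ C, ∀ x y, R x y → dist x y ≤ D → |f x - f y| ≤ C := by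
  obtain ⟨K, hK, hK'⟩ := S.cocompact
  obtain ⟨C, hC⟩ := (hK.cthickening (r := D)).exists_bound_of_continuousOn hf.continuousOn
  refine ⟨C + C, fun x y h hd => ?_⟩
  obtain ⟨g, hg⟩ := hK' x
  rw [← hs g x y h]
  refine (abs_sub _ _).trans (add_le_add (hC _ (self_subset_cthickening _ hg))
    (hC _ (mem_cthickening_of_dist_le _ _ _ _ hg ?_)))
  rwa [dist_smul, dist_comm]

theorem box0 (S : Sys Γ X B E V) {a : ℝ} (ha : 0 < a) (h1 : a ≤ 1) : ∃ ε > 0, ε < 1 ∧ ∀ x,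
    ∀ q : V, ‖q‖ ≤ ε → ∃ w : E, ‖w‖ < a ∧ S.c x (S.iS w) = ((S.c x q).1, S.ep x) := by
  obtain ⟨a', h0, h⟩ := S.box ha
  refine ⟨min (a' / 2) (1 / 2), by positivity, (min_le_right _ _).trans_lt (by norm_num),
    fun x q hq => ?_⟩
  obtain ⟨v, hv, e⟩ := h x q (mem_ball_zero_iff.2 (hq.trans_lt
    ((min_le_left _ _).trans_lt (by linarith)))) 0 (mem_ball_self h0)
  rw [S.c_zero] at e
  have h2 := (S.c_S x v (ball_subset_ball h1 hv)).1 (congrArg Prod.snd e)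
  exact ⟨S.pS v, (S.norm_pS_le v).trans_lt (mem_ball_zero_iff.1 hv), by rw [eq_iSe h2, e]⟩

/-- backward contraction of the unstable vectors near `y₀` -/
theorem back (S : Sys Γ X B E V) (y₀ : X) : ∃ ε > 0, ε < 1 ∧ ∃ C T₀ : ℝ, ∀ T ≥ T₀, ∀ q r : V,
    ‖q‖ ≤ ε → ‖r‖ ≤ ε → S.c (S.φ (-T) y₀) r = S.c y₀ q → ∀ v,
    (∀ y, S.pt y = S.c y₀ q → S.pS (fderiv ℝ (S.τ y₀ y) q v) = 0) →
    ‖fderiv ℝ (S.τ y₀ (S.φ (-T) y₀)) q v‖ ≤ C * Real.exp (-S.lam * T) * ‖v‖ := by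
  obtain ⟨ε, ε0, ε1, hε⟩ := S.box0 one_half_pos (by norm_num)
  obtain ⟨D, hD⟩ := S.fr_near (a := max ε (1 / 2)) (max_lt ε1 (by norm_num))
  obtain ⟨D₁, D0, hD₁⟩ := S.dist_le_lv
  obtain ⟨Cb, Cb0, hCb⟩ := S.unif_bd (jc_τ (S := S)) (fun g x y q hq => τ_smul g hq) (D + D₁) ε1 1
  obtain ⟨Cu, hCu⟩ := S.contrU 1 le_rfl
  obtain ⟨C₁, hC₁⟩ := lv_bd S.lv_cont S.lv_smul S (D + D)
  obtain ⟨C₂, hC₂⟩ := lv_bd S.lp_cont S.lp_smul S D
  obtain ⟨C₃, hC₃⟩ := (isCompact_closedBall y₀ D).exists_bound_of_continuousOn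
    (S.lv_cont.prodMk S.lp_cont).continuousOn
  have hC₄ : ∀ u, dist y₀ u ≤ D → |S.lv u| ≤ C₃ ∧ |S.lp u| ≤ C₃ := fun u hu =>
    max_le_iff.1 (hC₃ u (mem_closedBall'.2 hu))
  set T₀ := 3 * C₃ + C₁ + C₂ - S.lp y₀
  refine ⟨ε, ε0, ε1, Cb * (Cu * Real.exp (S.lam * T₀) * Cb), T₀, fun T hT q r hq hr e v hv => ?_⟩
  set z₀ := S.φ (-T) y₀
  obtain ⟨y, y1, y2⟩ := hD y₀ q (hq.trans (le_max_left _ _))
  obtain ⟨z, z1, z2⟩ := hD z₀ r (hr.trans (le_max_left _ _))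
  have t1 : T - T₀ ≤ S.lv y - S.lv z := by
    obtain ⟨w₀, w1, w2⟩ := hε y₀ q hq
    obtain ⟨w, w3, w4⟩ := hε z₀ r hr
    obtain ⟨u₀, u1, u2⟩ := hD y₀ (S.iS w₀) (by rw [norm_iS]; exact w1.le.trans (le_max_right _ _))
    obtain ⟨u, u3, u4⟩ := hD z₀ (S.iS w) (by rw [norm_iS]; exact w3.le.trans (le_max_right _ _))
    rw [w2] at u1
    rw [w4, e] at u3
    have a1 : S.ep u = S.ep z₀ := congrArg Prod.snd u3
    have a2 := S.lv_add u u₀ ((congrArg Prod.fst u3).trans (congrArg Prod.fst u1).symm)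
      ((a1.trans (S.ep_φ _ _)).trans (congrArg Prod.snd u1).symm)
    have a3 := hC₁ z u ((congrArg Prod.fst (z1.trans e)).trans (congrArg Prod.fst u3).symm)
      ((dist_triangle_left _ _ z₀).trans (add_le_add z2 u4))
    have a4 := hC₂ z₀ u a1.symm u4
    have a5 : S.lp z₀ = S.lp y₀ - -T := S.lp_φ _ _
    have a6 := hC₄ u₀ u2
    have a7 := hC₄ y y2
    simp only [abs_le] at a3 a4 a6 a7
    simp only [T₀]
    linarith [a3.2, a4.2, a6.1.2, a6.2.2, a7.1.1]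
  set T' := S.lv y - S.lv z
  set z' := S.φ (-T') y
  have p1 : S.pt z' = S.c y₀ q := (S.pt_φ _ _).trans y1
  have d1 : dist z' z₀ ≤ D + D₁ := by
    have := hD₁ z z' ((z1.trans e).trans p1.symm)
    rw [show S.lv z - S.lv z' = 0 by simp only [z', S.lv_φ, T']; ring, abs_zero, zero_add,
      mul_one] at this
    linarith [dist_triangle_left z' z₀ z, dist_comm z z₀]
  have q1 : q ∈ ball (0 : V) 1 := mem_ball_zero_iff.2 (hq.trans_lt ε1)
  have r1 : r ∈ ball (0 : V) 1 := mem_ball_zero_iff.2 (hr.trans_lt ε1)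
  obtain ⟨m1, m2⟩ := dom_of_pt q1 y1
  obtain ⟨m3, m4⟩ := dom_of_pt q1 p1
  have m5 : q ∈ S.dom y₀ z₀ := mem_dom q1 r1 e
  have m6 : (0 : V) ∈ S.dom z' z₀ := m4 ▸ τ_dom' m3 m5
  have m7 : (0 : V) ∈ S.dom y z' := m2 ▸ τ_dom' m1 m3
  have b1 := hCb y₀ y (by linarith) q m1 hq (by rw [m2, norm_zero]; exact ε0.le) 1 le_rfl
  have b2 := hCb z' z₀ d1 0 m6 (by rw [norm_zero]; exact ε0.le)
    (by rwa [τ_zero' r1 (p1.trans e.symm)]) 1 le_rfl
  have b3 := hCu y T' (by linarith) 0 (mem_ball_self S.ρ_pos)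
  rw [norm_iteratedFDeriv_one] at b1 b2 b3
  have b4 : HasFDerivAt (fun a => ttau S.c y z' (S.iU a)) (fderiv ℝ (S.τ y z') 0 ∘L S.iU) 0 :=
    HasFDerivAt.comp (g := S.τ y z') 0 (by rw [map_zero]; exact (differentiableAt_τ m7).hasFDerivAt)
      S.iU.hasFDerivAt
  rw [b4.fderiv] at b3
  have Cu0 : 0 ≤ Cu := nonneg_of_mul_nonneg_left ((norm_nonneg _).trans b3) (Real.exp_pos _)
  have b5 : Real.exp (-S.lam * T') ≤ Real.exp (S.lam * T₀) * Real.exp (-S.lam * T) := by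
    rw [← Real.exp_add]
    exact Real.exp_le_exp.2 (by nlinarith [S.lam_pos])
  rw [← fderiv_τ_trans m3 m5, ← fderiv_τ_trans m1 m3, m2, m4, ContinuousLinearMap.mul_apply,
    ContinuousLinearMap.mul_apply, ← eq_iUe (hv y y1)]
  have b6 := (fderiv ℝ (S.τ y z') 0 ∘L S.iU).le_of_opNorm_le_of_le
    (b3.trans (mul_le_mul_of_nonneg_left b5 Cu0))
    ((S.norm_pU_le _).trans ((fderiv ℝ (S.τ y₀ y) q).le_of_opNorm_le b1 v))
  exact ((fderiv ℝ (S.τ z' z₀) 0).le_of_opNorm_le_of_le b2 b6).trans_eq (by ring)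

theorem exp_tendsto (S : Sys Γ X B E V) (C C' : ℝ) :
    Tendsto (fun T : ℝ => C * Real.exp (-S.lam * T) * C') atTop (𝓝 0) := by
  have := ((Real.tendsto_exp_atBot.comp (tendsto_id.const_mul_atTop_of_neg
    (neg_neg_of_pos S.lam_pos))).const_mul C).mul_const C'
  rwa [mul_zero, zero_mul] at this

theorem cu_chart (S : Sys Γ X B E V) (y₀ : X) : ∃ ε > 0, ∀ (q q' : ℝ → V) (a b C₀ : ℝ),
    (∀ t ∈ Icc a b, HasDerivWithinAt q (q' t) (Icc a b) t ∧ ‖q' t‖ ≤ C₀ ∧ ‖q t‖ ≤ ε ∧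
      ∀ y, S.pt y = S.c y₀ (q t) → S.pS (fderiv ℝ (S.τ y₀ y) (q t) (q' t)) = 0) → q a = 0 →
    ∀ t ∈ Icc a b, (S.c y₀ (q t)).1 = S.em y₀ := by
  obtain ⟨ε₁, a0, a1, C, T₀, hC⟩ := S.back y₀
  obtain ⟨ε₂, b0, b1, hε⟩ := S.box0 (lt_min S.ρ_pos one_pos) (min_le_right _ _)
  obtain ⟨Cs, hCs⟩ := S.contrS 1 le_rfl
  refine ⟨min ε₁ ε₂, lt_min a0 b0, fun q q' a b C₀ h h0 t₁ ht₁ => ?_⟩
  set ε := min ε₁ ε₂
  have ε0 : 0 < ε := lt_min a0 b0
  have ε1 : closedBall (0 : V) ε ⊆ ball 0 1 := closedBall_subset_ball ((min_le_left _ _).trans_lt a1)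
  have q1 : ∀ t ∈ Icc a b, q t ∈ ball (0 : V) 1 := fun t ht =>
    ε1 (mem_closedBall_zero_iff.2 (h t ht).2.2.1)
  have hγ : ContinuousOn (fun t => S.c y₀ (q t)) (Icc a b) :=
    (S.cont_c y₀).comp (fun t ht => (h t ht).1.continuousWithinAt) q1
  obtain ⟨w₀, w1, w2⟩ := hε y₀ (q t₁) ((h t₁ ht₁).2.2.1.trans (min_le_right _ _))
  have w3 : S.iS w₀ ∈ ball (0 : V) 1 :=
    mem_ball_zero_iff.2 ((S.norm_iS _).trans_lt (w1.trans_le (min_le_right _ _)))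
  suffices hw : ‖S.iS w₀‖ ≤ 0 by
    rw [norm_le_zero_iff.1 hw, S.c_zero] at w2
    exact (congrArg Prod.fst w2).symm
  refine ge_of_tendsto (S.exp_tendsto Cs S.ρ) ?_
  filter_upwards [eventually_ge_atTop T₀, eventually_ge_atTop 0,
    (S.exp_tendsto |C| (C₀ * (b - a))).eventually (gt_mem_nhds ε0)] with T hT hT0 hTε
  set z₀ := S.φ (-T) y₀
  have hK : IsClosed (S.c z₀ '' closedBall 0 ε) :=
    ((isCompact_closedBall _ _).image_of_continuousOn ((S.cont_c z₀).mono ε1)).isClosed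
  have key : Icc a b ⊆ (fun t => S.c y₀ (q t)) ⁻¹' (S.c z₀ '' closedBall 0 ε) := by
    refine IsClosed.Icc_subset_of_forall_mem_nhdsGT_of_Icc_subset
      (inter_comm _ _ ▸ hγ.preimage_isClosed_of_isClosed isClosed_Icc hK)
      ⟨0, mem_closedBall_self ε0.le, by
        simp only [h0, c_zero']; exact S.pt_φ _ _⟩ fun t ht hs => ?_
    have sub : Icc a t ⊆ Icc a b := Icc_subset_Icc_right ht.2.le
    have dm : ∀ s ∈ Icc a t, q s ∈ S.dom y₀ z₀ := fun s hs' => by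
      obtain ⟨r, r1, r2⟩ := hs hs'
      exact mem_dom (q1 s (sub hs')) (ε1 r1) r2
    have k1 := norm_image_sub_le_of_norm_deriv_le_segment' (f := fun s => S.τ y₀ z₀ (q s))
      (C := |C| * Real.exp (-S.lam * T) * C₀)
      (fun s hs' => (differentiableAt_τ (dm s hs')).hasFDerivAt.comp_hasDerivWithinAt s
        ((h s (sub hs')).1.mono sub)) (fun s hs' => by
        obtain ⟨-, k2, k3, k4⟩ := h s (sub (Ico_subset_Icc_self hs'))
        obtain ⟨r, r1, r2⟩ := hs (Ico_subset_Icc_self hs')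
        refine (hC T hT (q s) r (k3.trans (min_le_left _ _))
          ((mem_closedBall_zero_iff.1 r1).trans (min_le_left _ _)) r2 _ k4).trans ?_
        gcongr
        exact le_abs_self C) t ⟨ht.1, le_rfl⟩
    have C0 : 0 ≤ C₀ := (norm_nonneg _).trans (h t₁ ht₁).2.1
    rw [h0, τ_zero (S.pt_φ _ _).symm, sub_zero, mul_assoc] at k1
    have k2 : S.τ y₀ z₀ (q t) ∈ ball (0 : V) ε := by
      refine mem_ball_zero_iff.2 ((k1.trans ?_).trans_lt hTε)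
      gcongr
      exact ht.2.le
    have k3 := (hγ t (Ico_subset_Icc_self ht)).preimage_mem_nhdsWithin
      ((S.open_c z₀ isOpen_ball (ball_subset_closedBall.trans ε1)).mem_nhds
        ⟨_, k2, c_τ (dm t ⟨ht.1, le_rfl⟩)⟩)
    exact mem_of_superset (nhdsWithin_le_of_mem (Icc_mem_nhdsGT_of_mem ht) k3)
      (preimage_mono (image_mono ball_subset_closedBall))
  obtain ⟨r, r1, r2⟩ := key ht₁
  obtain ⟨w, w4, w5⟩ := hε z₀ r ((mem_closedBall_zero_iff.1 r1).trans (min_le_right _ _))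
  have e0 : S.φ T z₀ = y₀ := by rw [← S.φ_add, add_neg_cancel, S.φ_zero]
  have e1 : S.τ z₀ y₀ (S.iS w) = S.iS w₀ := τ_eq w3 (by rw [w2, w5, r2, S.ep_φ])
  have w6 : w ∈ ball (0 : E) S.ρ := mem_ball_zero_iff.2 (w4.trans_le (min_le_left _ _))
  have k := (convex_ball (0 : E) S.ρ).norm_image_sub_le_of_norm_fderiv_le
    (f := fun w => S.τ z₀ y₀ (S.iS w)) (C := Cs * Real.exp (-S.lam * T))
    (fun u hu => (differentiableAt_τ (e0 ▸ S.domS z₀ T hT0 u hu)).comp u S.iS.differentiableAt)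
    (fun u hu => by
      have := hCs z₀ T hT0 u hu
      rwa [norm_iteratedFDeriv_one, e0] at this) (mem_ball_self S.ρ_pos) w6
  have Cs0 : 0 ≤ Cs * Real.exp (-S.lam * T) :=
    (norm_nonneg _).trans (hCs z₀ T hT0 0 (mem_ball_self S.ρ_pos))
  have e2 : S.τ z₀ y₀ 0 = 0 := τ_zero (S.pt_φ (-T) y₀)
  simp only [e1, map_zero, e2, sub_zero] at k
  exact k.trans (mul_le_mul_of_nonneg_left (mem_ball_zero_iff.1 w6).le Cs0)

/-- **A curve tangent to the unstable spaces stays in an unstable leaf.** -/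
theorem cu {c c' : ℝ → A} {a b C₀ : ℝ}
    (h : ∀ t ∈ Icc a b, HasDerivWithinAt c (c' t) (Icc a b) t ∧ ‖c' t‖ ≤ C₀ ∧
      (∃ x Q, S.Rep P (c t) x Q) ∧ S.TanU P (c t) (c' t)) :
    ∀ t ∈ Icc a b, (P (c t)).1 = (P (c a)).1 := by
  have hγ : ContinuousOn (fun t => (P (c t)).1) (Icc a b) := fun t ht => by
    obtain ⟨h1, -, ⟨x, Q, h2⟩, -⟩ := h t ht
    exact continuousAt_fst.comp_continuousWithinAt
      (h2.cont.comp_continuousWithinAt h1.continuousWithinAt)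
  refine IsClosed.Icc_subset_of_forall_mem_nhdsWithin
    (s := (fun t => (P (c t)).1) ⁻¹' {(P (c a)).1})
    (inter_comm _ _ ▸ hγ.preimage_isClosed_of_isClosed isClosed_Icc isClosed_singleton) rfl
    fun t ⟨ht, ht'⟩ => ?_
  obtain ⟨h1, -, ⟨x, Q, h2⟩, -⟩ := h t (Ico_subset_Icc_self ht')
  obtain ⟨y₀, Q, h2, h3⟩ := h2.exists_centre
  obtain ⟨ε, ε0, hε⟩ := S.cu_chart y₀
  have e1 : ∀ᶠ p' in 𝓝 (c t), ‖Q p'‖ ≤ ε :=
    h2.diff.continuousAt.norm.eventually (Iic_mem_nhds (by simpa [h3] using ε0))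
  have e2 : ∀ᶠ p' in 𝓝 (c t), ‖fderiv ℝ Q p'‖ ≤ ‖fderiv ℝ Q (c t)‖ + 1 :=
    h2.diff2.continuousAt.norm.eventually (Iic_mem_nhds (lt_add_one _))
  have e3 := (h1.continuousWithinAt.mono_of_mem_nhdsWithin (Icc_mem_nhdsGE_of_mem ht')).eventually
    (h2.eventually.and (e1.and e2))
  obtain ⟨b', hb', e4⟩ := mem_nhdsGE_iff_exists_Icc_subset.1 (e3.and (Icc_mem_nhdsGE_of_mem ht'))
  have sub : Icc t b' ⊆ Icc a b := fun s hs => (e4 hs).2
  have k := hε (fun s => Q (c s)) (fun s => fderiv ℝ Q (c s) (c' s)) t b'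
    ((‖fderiv ℝ Q (c t)‖ + 1) * C₀) (fun s hs => by
      obtain ⟨⟨k1, k2, k3⟩, k4⟩ := e4 hs
      obtain ⟨k5, k6, -, k7⟩ := h s k4
      refine ⟨k1.diff.hasFDerivAt.comp_hasDerivWithinAt s (k5.mono sub),
        (fderiv ℝ Q (c s)).le_of_opNorm_le_of_le k3 k6, k2, fun y hy => ?_⟩
      obtain ⟨k8, k9⟩ := k1.centre (hy.trans k1.eq0.symm)
      rw [← k1.fderiv_eq k8]
      exact k7 y _ k8 k9) h3
  filter_upwards [Ioc_mem_nhdsGT hb'] with s hs
  have k1 := k s (Ioc_subset_Icc_self hs)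
  rw [← (e4 (Ioc_subset_Icc_self hs)).1.1.eq0] at k1
  exact k1.trans ((congrArg Prod.fst (h2.pt_eq h3)).trans ht)

end Sys

end Vale.Agent.P207Z
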