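import Vale.Agent.P207Z.Tim

/-!
# P207: the data of the final contradiction (block END)
-/

set_option linter.all false

open Set Filter Topology Metric
open scoped ContDiff

noncomputable section

namespace Vale.Agent.P207Z

variable {Γ X B E V : Type} [Group Γ] [Countable Γ] [MetricSpace X] [ProperSpace X]
  [MulAction Γ X] [IsIsometricSMul Γ X] [MeasurableSpace X] [BorelSpace X]
  [TopologicalSpace B] [CompactSpace B] [T2Space B] [SecondCountableTopology B] [MulAction Γ B]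
  [ContinuousConstSMul Γ B] [MeasurableSpace B] [BorelSpace B]
  [NormedAddCommGroup E] [InnerProductSpace ℝ E] [FiniteDimensional ℝ E]
  [NormedAddCommGroup V] [NormedSpace ℝ V] [FiniteDimensional ℝ V]
  {A K W : Type} [NormedAddCommGroup A] [NormedSpace ℝ A] [NormedAddCommGroup K] [NormedSpace ℝ K]
  [NormedAddCommGroup W] [NormedSpace ℝ W]

namespace Sys

variable (S : Sys Γ X B E V)

/-- `Q` is the map `P` near `p`, read in the chart of `x`; it is of class `C²` -/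
structure Rep (P : A → B × B) (p : A) (x : X) (Q : A → V) : Prop where
  sm : ContDiffAt ℝ 2 Q p
  mem : Q p ∈ ball (0 : V) 1
  eq : ∀ᶠ p' in 𝓝 p, P p' = S.c x (Q p')

/-- A smooth field of projections near the centre of a chart whose range meets the unstable space
in a constant dimension, and is integrable and isotropic, to a finite order, along the unstable
axis. -/
structure ZU (L : ℕ) (Pr : V → V →L[ℝ] V) : Prop where
  sm : ∀ᶠ z in 𝓝 (0 : V), ContDiffAt ℝ ∞ Pr z ∧ Pr z * Pr z = Pr z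
  rk : ∃ r, ∀ᶠ a in 𝓝 (0 : E), Module.finrank ℝ ((Pr (S.iU a)).range ⊓ S.Eu : Submodule ℝ V) = r
  int : ∀ᶠ a in 𝓝 (0 : E), ∀ v w, Flat L (fun z => cmp Pr z
    (VectorField.lieBracket ℝ (fun y => Pr y v) (fun y => Pr y w) z)) (S.iU a)
  iso : ∀ᶠ a in 𝓝 (0 : E), ∀ v w, Flat 1 (fun z => S.om (Pr z v) (Pr z w)) (S.iU a)

/-- The realised family: `(σ, κ) : ℝ × K` are coordinates on a piece `O` of the unstable leaf of
`ξ`, `s : W` is the affine parameter of the leaves of `F`. -/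
structure Fam (L : ℕ) (P : (ℝ × K) × W → B × B) (O : Set (ℝ × K)) (σ₀ : ℝ) (ξ : B)
    (β : ℝ × K → B) (M : ℝ × K → W →L[ℝ] K →L[ℝ] ℝ) (G : Set ℝ) : Prop where
  isOpen : IsOpen O
  pos : 0 < σ₀
  seg : ∀ σ ∈ Icc 0 σ₀, (σ, 0) ∈ O
  base : ∀ y ∈ O, (P (y, 0)).1 = ξ
  leaf : ∀ y ∈ O, ∀ s, (P (y, s)).2 = β y
  ne : β (σ₀, 0) ≠ β 0
  rep : ∀ y ∈ O, ∀ s, ∃ x Q, S.Rep P (y, s) x Q ∧
    (∀ e, S.om (fderiv ℝ Q (y, s) (0, e)) (fderiv ℝ Q (y, s) ((1, 0), 0)) = 0) ∧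
    ∀ e k, S.om (fderiv ℝ Q (y, s) (0, e)) (fderiv ℝ Q (y, s) ((0, k), 0)) = M y e k
  inj : ∀ y ∈ O, ∀ e, M y e = 0 → e = 0
  dense : Icc 0 σ₀ ⊆ closure (G ∩ Icc 0 σ₀)
  /-- `∂σ P ∈ ∂s P + E^u` -/
  tan : ∀ σ ∈ G ∩ Icc 0 σ₀, ∀ s, ∃ x Q a, S.Rep P ((σ, 0), s) x Q ∧ Q ((σ, 0), s) = 0 ∧
    S.pS (fderiv ℝ Q ((σ, 0), s) ((1, 0), a)) = 0
  /-- unstable leaves along which `Z` extends, through far points of the leaf of `F` -/
  far : ∀ N ∈ 𝓝 (β 0), ∃ s₀, (P (0, s₀)).1 ∈ N ∧ ∀ η, η ≠ (P (0, s₀)).1 →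
    ∃ (x : X) (Pr : V → V →L[ℝ] V), S.pt x = ((P (0, s₀)).1, η) ∧ S.ZU L Pr ∧
      ∀ᶠ z in 𝓝 (0 : V), S.pS z = 0 → ∀ σ ∈ G ∩ Icc 0 σ₀, ∀ s Q, S.Rep P ((σ, 0), s) x Q →
        Q ((σ, 0), s) = z → ∀ r e,
          Flat 1 (fun p => cmp Pr (Q p) (fderiv ℝ Q p ((r, 0), e))) ((σ, 0), s)

end Sys

end Vale.Agent.P207Z
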