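import Vale.Agent.P207Z.End.Vel
import Vale.Agent.P207Z.An.Frob
import Vale.Agent.P207Z.Calc

/-!
# P207: first integrals along an unstable leaf, and the bound for the momentum
-/

set_option linter.all false

open Set Filter Topology Metric Asymptotics Module
open scoped ContDiff

noncomputable section

namespace Vale.Agent.P207Z

variable {Γ X B E V : Type} [Group Γ] [Countable Γ] [MetricSpace X] [ProperSpace X]
  [MulAction Γ X] [IsIsometricSMul Γ X] [MeasurableSpace X] [BorelSpace X]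
  [TopologicalSpace B] [CompactSpace B] [T2Space B] [SecondCountableTopology B] [MulAction Γ B]
  [ContinuousConstSMul Γ B] [MeasurableSpace B] [BorelSpace B]
  [NormedAddCommGroup E] [InnerProductSpace ℝ E] [FiniteDimensional ℝ E]
  [NormedAddCommGroup V] [NormedSpace ℝ V] [FiniteDimensional ℝ V]
  {H K W : Type} [NormedAddCommGroup H] [NormedSpace ℝ H] [NormedAddCommGroup K] [NormedSpace ℝ K]
  [NormedAddCommGroup W] [NormedSpace ℝ W] {S : Sys Γ X B E V}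

theorem Flat.hasFDerivAt_zero {f : H → W} {z : H} (h : Flat 1 f z) :
    HasFDerivAt f (0 : H →L[ℝ] W) z := by
  rw [hasFDerivAt_iff_isLittleO]
  simpa [h.eq_zero, Flat] using h

theorem flat_of_bigO {f : V → W} (τ : V →L[ℝ] V) (h : f =O[𝓝 0] fun z => ‖τ z‖ ^ 2) :
    ∀ᶠ z in 𝓝 (0 : V), τ z = 0 → Flat 1 f z := by
  obtain ⟨c, c0, h⟩ := h.exists_pos
  filter_upwards [h.bound.eventually_nhds] with z hz h0
  refine Flat.of_pow (C := c * ‖τ‖ ^ 2) (hz.mono fun q hq => hq.trans ?_)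
  have : ‖τ q‖ ≤ ‖τ‖ * ‖q - z‖ := by simpa [h0] using τ.le_opNorm (q - z)
  rw [norm_pow, norm_norm, mul_assoc, ← mul_pow]
  gcongr

theorem two_le_top : (2 : WithTop ℕ∞) ≤ ∞ := WithTop.coe_le_coe.2 (le_top (a := (2 : ℕ∞)))

namespace Sys

/-- the integral of `ω (Y', V)` along the curves on which `g` and `dg V` are constant is bounded -/
def Box (S : Sys Γ X B E V) (g : V → K) (N : Set V) (C : ℝ) : Prop :=
  ∀ (Y Y' Z : ℝ → V) (f : ℝ → ℝ) (v : K) (a b : ℝ), a ≤ b → (∀ t ∈ Icc a b, Y t ∈ N ∧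
    S.pS (Y t) = 0 ∧ HasDerivWithinAt Y (Y' t) (Icc a b) t ∧ fderiv ℝ g (Y t) (Y' t) = 0 ∧
    fderiv ℝ g (Y t) (Z t) = v ∧ HasDerivWithinAt f (S.om (Y' t) (Z t)) (Icc a b) t) →
    |f b - f a| ≤ C * ‖v‖

theorem box_core {Ph : V → H × K} {Ψ : H × K → V} {N : Set V} {Λ : Set (H × K)} (hΛ : Convex ℝ Λ)
    {δ C : ℝ} (hN : ∀ z ∈ N, S.pS z = 0 → Ph z ∈ Λ ∧ DifferentiableAt ℝ Ph z ∧
      ∀ u, fderiv ℝ Ψ (Ph z) (fderiv ℝ Ph z u) = u)
    (hΨ : ∀ p ∈ Λ, ‖p‖ ≤ δ ∧ ContDiffAt ℝ 2 Ψ p ∧ ‖fderiv ℝ Ψ p‖ ≤ C ∧ ∀ u u',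
      Flat 1 (fun p => S.om (fderiv ℝ Ψ p (u, 0)) (fderiv ℝ Ψ p (u', 0))) p) :
    S.Box (fun z => (Ph z).2) N (‖S.om‖ * C * C * (δ + δ)) := by
  intro Y Y' Z f v a b hab h
  have dg : ∀ t ∈ Icc a b, ∀ u, fderiv ℝ (fun z => (Ph z).2) (Y t) u = (fderiv ℝ Ph (Y t) u).2 :=
    fun t ht u => by rw [fderiv.snd (hN _ (h t ht).1 (h t ht).2.1).2.1]; rfl
  have dR : ∀ t ∈ Icc a b,
      HasDerivWithinAt (fun t => Ph (Y t)) (fderiv ℝ Ph (Y t) (Y' t)) (Icc a b) t := fun t ht =>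
    (hN _ (h t ht).1 (h t ht).2.1).2.1.hasFDerivAt.comp_hasDerivWithinAt t (h t ht).2.2.1
  have zero : ∀ {F : Type} [NormedAddCommGroup F] [NormedSpace ℝ F] {w : ℝ → F},
      (∀ t ∈ Icc a b, HasDerivWithinAt w 0 (Icc a b) t) → ∀ t ∈ Icc a b, w t = w a :=
    fun k t ht => by
      have := norm_image_sub_le_of_norm_deriv_le_segment' (C := 0) k (fun _ _ => norm_zero.le) t ht
      rwa [zero_mul, norm_le_zero_iff, sub_eq_zero] at this
  have y0 := zero (w := fun t => (Ph (Y t)).2) fun t ht =>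
    ((ContinuousLinearMap.snd ℝ H K).hasFDerivAt.comp_hasDerivWithinAt t (dR t ht)).congr_deriv
      ((dg t ht _).symm.trans (h t ht).2.2.2.1)
  set y₀ := (Ph (Y a)).2
  set s : Set H := {u | (u, y₀) ∈ Λ}
  have hs : Convex ℝ s := fun u hu u' hu' α β h1 h2 h3 => by
    have := hΛ hu hu' h1 h2 h3
    rwa [Prod.smul_mk, Prod.smul_mk, Prod.mk_add_mk, ← add_smul, h3, one_smul] at this
  have ms : ∀ t ∈ Icc a b, ((Ph (Y t)).1, y₀) = Ph (Y t) := fun t ht => Prod.ext rfl (y0 t ht).symm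
  have ms' : ∀ t ∈ Icc a b, (Ph (Y t)).1 ∈ s := fun t ht => by
    show _ ∈ Λ
    rw [ms t ht]
    exact (hN _ (h t ht).1 (h t ht).2.1).1
  set μ : H → H →L[ℝ] ℝ := fun u => S.om.flip (fderiv ℝ Ψ (u, y₀) (0, v)) ∘L
    fderiv ℝ Ψ (u, y₀) ∘L ContinuousLinearMap.inl ℝ H K
  have d2 : ∀ u ∈ s, HasFDerivAt (fderiv ℝ Ψ) (fderiv ℝ (fderiv ℝ Ψ) (u, y₀)) (u, y₀) := fun u hu =>
    (((hΨ _ hu).2.1.fderiv_right (m := 1) (by norm_num)).differentiableAt (by simp)).hasFDerivAt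
  have dμ : ∀ u ∈ s, DifferentiableAt ℝ μ u := fun u hu => by
    have k : DifferentiableAt ℝ (fun u => fderiv ℝ Ψ (u, y₀)) u :=
      (d2 u hu).differentiableAt.comp u (differentiableAt_id.prodMk (differentiableAt_const _))
    exact (S.om.flip.differentiableAt.comp u (k.clm_apply (differentiableAt_const _))).clm_comp
      (k.clm_comp (differentiableAt_const _))
  obtain ⟨ψ, hψ⟩ := hs.exists_forall_hasFDerivWithinAt_of_hasFDerivWithinAt_symmetric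
    (fun u hu => (dμ u hu).hasFDerivAt.hasFDerivWithinAt) fun u hu x _ y _ => by
      have k : ∀ x y, fderiv ℝ μ u x y = _ := fun x y => DFunLike.congr_fun
        (((dμ u hu).hasFDerivAt.clm_apply (hasFDerivAt_const y u)).unique
          (HasFDerivAt.comp (f := fun u => (u, y₀)) u (hasFDerivAt_bil (d2 u hu) S.om (y, 0) (0, v))
            (hasFDerivAt_prodMk_left u y₀))) x |>.symm.trans (by simp) |>.symm
      have sy := ((hΨ _ hu).2.1.isSymmSndFDerivAt (by simp)).eq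
      have k1 := DFunLike.congr_fun ((hasFDerivAt_bil (d2 u hu) S.om (x, 0) (y, 0)).unique
        ((hΨ _ hu).2.2.2 x y).hasFDerivAt_zero) (0, v)
      rw [k, k]
      simp only [ContinuousLinearMap.add_apply, ContinuousLinearMap.comp_apply,
        ContinuousLinearMap.flip_apply, ContinuousLinearMap.inl_apply,
        ContinuousLinearMap.zero_apply] at k1 ⊢
      rw [sy (0, v), sy (0, v), S.om_antie] at k1
      rw [sy (x, 0) (y, 0)]
      linarith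
  have k1 := zero (w := fun t => f t - ψ (Ph (Y t)).1) fun t ht => by
    obtain ⟨h1, h2, h3, h4, h5, h6⟩ := h t ht
    refine (h6.sub ((hψ _ (ms' t ht)).comp_hasDerivWithinAt t
      ((ContinuousLinearMap.fst ℝ H K).hasFDerivAt.comp_hasDerivWithinAt t (dR t ht))
      ms')).congr_deriv ?_
    have e1 : fderiv ℝ Ψ (Ph (Y t)) ((fderiv ℝ Ph (Y t) (Y' t)).1, 0) = Y' t := by
      rw [← h4, dg t ht]
      exact (hN _ h1 h2).2.2 _
    have e2 : fderiv ℝ Ψ (Ph (Y t)) ((fderiv ℝ Ph (Y t) (Z t)).1, 0) +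
        fderiv ℝ Ψ (Ph (Y t)) (0, v) = Z t := by
      rw [← map_add, Prod.mk_add_mk, add_zero, zero_add, ← h5, dg t ht]
      exact (hN _ h1 h2).2.2 _
    have e3 := ((hΨ _ (hN _ h1 h2).1).2.2.2 (fderiv ℝ Ph (Y t) (Y' t)).1
      (fderiv ℝ Ph (Y t) (Z t)).1).eq_zero
    simp only [e1] at e3
    simp only [μ, Function.comp, ContinuousLinearMap.comp_apply, ContinuousLinearMap.flip_apply,
      ContinuousLinearMap.inl_apply, ContinuousLinearMap.coe_fst', ms t ht, e1]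
    rw [← e2, map_add, e3, zero_add, sub_self]
  have ha : a ∈ Icc a b := left_mem_Icc.2 hab
  have hb : b ∈ Icc a b := right_mem_Icc.2 hab
  have C0 : 0 ≤ C := (norm_nonneg _).trans (hΨ _ (ms' a ha)).2.2.1
  have k2 := hs.norm_image_sub_le_of_norm_hasFDerivWithin_le (C := ‖S.om‖ * C * C * ‖v‖) hψ
    (fun u hu => ContinuousLinearMap.opNorm_le_bound _ (by positivity) fun x => by
      have b1 := (fderiv ℝ Ψ (u, y₀)).le_of_opNorm_le (hΨ _ hu).2.2.1 (x, 0)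
      have b2 := (fderiv ℝ Ψ (u, y₀)).le_of_opNorm_le (hΨ _ hu).2.2.1 (0, v)
      rw [Prod.norm_mk, norm_zero, max_eq_left (norm_nonneg _)] at b1
      rw [Prod.norm_mk, norm_zero, max_eq_right (norm_nonneg _)] at b2
      have b3 : ‖S.om‖ * ‖fderiv ℝ Ψ (u, y₀) (x, 0)‖ * ‖fderiv ℝ Ψ (u, y₀) (0, v)‖ ≤
          ‖S.om‖ * (C * ‖x‖) * (C * ‖v‖) := by gcongr
      exact (S.om.le_opNorm₂ _ _).trans (b3.trans_eq (by ring))) (ms' a ha) (ms' b hb)
  have k3 : ‖(Ph (Y b)).1 - (Ph (Y a)).1‖ ≤ δ + δ := (norm_sub_le _ _).trans (add_le_add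
    ((norm_fst_le (_, y₀)).trans (hΨ _ (ms' b hb)).1) ((norm_fst_le (_, y₀)).trans (hΨ _ (ms' a ha)).1))
  have k4 : f b - f a = ψ (Ph (Y b)).1 - ψ (Ph (Y a)).1 := by linarith [k1 b hb]
  rw [k4]
  exact k2.trans ((mul_le_mul_of_nonneg_left k3 (by positivity)).trans_eq (by ring))

theorem ev_anti {F : Type} [NormedAddCommGroup F] [NormedSpace ℝ F] {T : V → V →L[ℝ] F}
    (h : ContinuousAt T 0) (hi : ∀ u, T 0 u = 0 → u = 0) :
    ∃ c, ∀ᶠ z in 𝓝 (0 : V), ∀ u, ‖u‖ ≤ c * ‖T z u‖ := by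
  obtain ⟨c, c0, hc⟩ := (T 0 : V →ₗ[ℝ] F).exists_antilipschitzWith (LinearMap.ker_eq_bot'.2 hi)
  have c1 : (0 : ℝ) < c := c0
  refine ⟨2 * c, ?_⟩
  filter_upwards [h.eventually (ball_mem_nhds _ (show 0 < 1 / (2 * (c : ℝ)) by positivity))]
    with z hz u
  have k1 : ‖u‖ ≤ c * ‖T 0 u‖ := by simpa using hc.le_mul_dist u 0
  have k2 := (T z - T 0).le_of_opNorm_le (mem_ball_iff_norm.1 hz).le u
  have k3 := norm_sub_norm_le (T 0 u) (T z u)
  rw [norm_sub_rev, ← ContinuousLinearMap.sub_apply] at k3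
  have k4 : c * (1 / (2 * (c : ℝ)) * ‖u‖) = ‖u‖ / 2 := by field_simp
  nlinarith

theorem box_mid [FiniteDimensional ℝ H] {Pr : V → V →L[ℝ] V} {τ : V →L[ℝ] V}
    (t0 : ∀ z, τ z = 0 ↔ S.pS z = 0)
    (sm : ∀ᶠ z in 𝓝 (0 : V), ContDiffAt ℝ ∞ Pr z ∧ Pr z * Pr z = Pr z)
    (i2 : ∀ᶠ z in 𝓝 (0 : V), τ z = 0 → ∀ v w, Flat 1 (fun z => S.om (Pr z v) (Pr z w)) z)
    (Ph : OpenPartialHomeomorph V (H × K)) {Λ : Set (H × K)} (hΛ : Convex ℝ Λ)
    (p1 : 0 ∈ Ph.source) (p2 : Ph 0 = 0) (p3 : ContDiffOn ℝ ∞ Ph Ph.source)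
    (p4 : ContDiffOn ℝ ∞ Ph.symm Ph.target) (p5 : finrank ℝ H = finrank ℝ (Pr 0).range)
    (p6 : ∀ z ∈ Ph.source, τ z = 0 ↔ Ph z ∈ Λ)
    (p7 : ∀ v, (fun z => fderiv ℝ (fun y => (Ph y).2) z (Pr z v)) =O[𝓝 0] fun z => ‖τ z‖ ^ 2) :
    ∃ (g : V → K) (C : ℝ), 0 ≤ C ∧ ∃ N ∈ 𝓝 (0 : V), S.Box g N C ∧ ∀ z ∈ N, ContDiffAt ℝ 2 g z ∧
      (S.pS z = 0 → Flat 1 (fun q => fderiv ℝ g q ∘L Pr q) z) := by
  have s0 := sm.self_of_nhds
  set g := fun y => (Ph y).2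
  have q1 : ∀ z ∈ Ph.source, ContDiffAt ℝ ∞ Ph z := fun z hz =>
    p3.contDiffAt (Ph.open_source.mem_nhds hz)
  have q2 : ∀ p ∈ Ph.target, ContDiffAt ℝ ∞ Ph.symm p := fun z hz =>
    p4.contDiffAt (Ph.open_target.mem_nhds hz)
  have q3 : ∀ z ∈ Ph.source, ∀ u, fderiv ℝ Ph.symm (Ph z) (fderiv ℝ Ph z u) = u := fun z hz u =>
    DFunLike.congr_fun (((((q2 _ (Ph.map_source hz)).differentiableAt (by simp)).hasFDerivAt.comp z
      ((q1 z hz).differentiableAt (by simp)).hasFDerivAt).congr_of_eventuallyEq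
      ((Ph.eventually_left_inverse hz).mono fun _ k => k.symm)).unique (hasFDerivAt_id z)) u
  have q4 : ∀ z ∈ Ph.source, ∀ u, fderiv ℝ Ph z (fderiv ℝ Ph.symm (Ph z) u) = u := fun z hz u => by
    have k := ((q1 z hz).differentiableAt (by simp)).hasFDerivAt
    rw [← Ph.left_inv hz] at k
    have := DFunLike.congr_fun (((k.comp (Ph z) ((q2 _ (Ph.map_source hz)).differentiableAt
      (by simp)).hasFDerivAt).congr_of_eventuallyEq ((Ph.eventually_right_inverse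
      (Ph.map_source hz)).mono fun _ k => k.symm)).unique (hasFDerivAt_id _)) u
    rwa [Ph.left_inv hz] at this
  have dg : ∀ z ∈ Ph.source, ∀ u, fderiv ℝ g z u = (fderiv ℝ Ph z u).2 := fun z hz u => by
    rw [fderiv.snd ((q1 z hz).differentiableAt (by simp))]; rfl
  have o1 : (fun z => fderiv ℝ g z ∘L Pr z) =O[𝓝 0] fun z => ‖τ z‖ ^ 2 := An.isBigO_clm p7
  have f1 := flat_of_bigO τ o1
  -- the kernel of `dg` at the centre is the range of the projection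
  set Xf : V → _ →L[ℝ] V := fun z => fderiv ℝ Ph.symm (Ph z) ∘L ContinuousLinearMap.inl ℝ _ _
  have ker : ∀ u, fderiv ℝ g 0 u = 0 → Pr 0 u = u := fun u hu => by
    have e : ∀ u, fderiv ℝ g 0 u = 0 → u ∈ (Xf 0).range := fun u hu =>
      ⟨(fderiv ℝ Ph 0 u).1, by
        conv_rhs => rw [← q3 0 p1 u]
        exact congrArg (fderiv ℝ Ph.symm (Ph 0)) (Prod.ext rfl ((dg 0 p1 u).symm.trans hu).symm)⟩
    have k : (Pr 0).range = (Xf 0).range := Submodule.eq_of_le_of_finrank_le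
      (by rintro _ ⟨v, rfl⟩
          exact e _ (DFunLike.congr_fun (f1.self_of_nhds (map_zero τ)).eq_zero v))
      ((LinearMap.finrank_range_le _).trans p5.le)
    exact (An.mem_range_idem s0.2).1 (k ▸ e u hu)
  have cg : ∀ z ∈ Ph.source, ContinuousAt (fderiv ℝ g) z := fun z hz =>
    ((q1 z hz).snd.fderiv_right (m := 0) (by simp)).continuousAt
  have cX : ∀ z ∈ Ph.source, ContinuousAt Xf z := fun z hz =>
    (((q2 _ (Ph.map_source hz)).fderiv_right (m := 0) (by simp)).continuousAt.comp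
      (q1 z hz).continuousAt).clm_comp continuousAt_const
  obtain ⟨c, hc⟩ := ev_anti (T := fun z => (fderiv ℝ g z).prod (Pr z))
    ((ContinuousLinearMap.prodₗᵢ ℝ).continuous.continuousAt.comp
      ((cg 0 p1).prodMk s0.1.continuousAt)) fun u hu => by
        have k := Prod.mk_eq_zero.1 hu
        exact (ker u k.1).symm.trans k.2
  have o2 : (fun z => cmp Pr z ∘L Xf z) =O[𝓝 0] fun z => ‖τ z‖ ^ 2 := by
    refine An.isBigO_clm fun u => IsBigO.trans (IsBigO.of_bound (|c| * (‖Xf 0 u‖ + 1)) ?_) o1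
    filter_upwards [hc, sm, Ph.open_source.mem_nhds p1,
      An.ev_bd ((cX 0 p1).clm_apply (continuousAt_const (y := u)))] with z k1 k2 k3 k4
    have e1 : Pr z (Xf z u - Pr z (Xf z u)) = 0 := by
      rw [map_sub, ← ContinuousLinearMap.mul_apply (Pr z) (Pr z), k2.2, sub_self]
    have e2 : fderiv ℝ g z (Xf z u) = 0 := (dg z k3 _).trans (congrArg Prod.snd (q4 z k3 (u, 0)))
    have e3 := k1 (Xf z u - Pr z (Xf z u))
    rw [ContinuousLinearMap.prod_apply, e1, map_sub, e2, zero_sub, Prod.norm_mk, norm_zero,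
      max_eq_left (norm_nonneg _), norm_neg] at e3
    refine e3.trans ((mul_le_mul (le_abs_self c) ((fderiv ℝ g z ∘L Pr z).le_of_opNorm_le_of_le
      le_rfl k4) (norm_nonneg _) (abs_nonneg c)).trans_eq (by ring))
  have f2 : ∀ᶠ z in 𝓝 (0 : V), z ∈ Ph.source ∧ ‖fderiv ℝ Ph.symm (Ph z)‖ ≤
      ‖fderiv ℝ Ph.symm (Ph 0)‖ + 1 ∧ (τ z = 0 → Flat 1 (fun q => fderiv ℝ g q ∘L Pr q) z ∧
        ∀ u u', Flat 1 (fun q => S.om (Xf q u) (Xf q u')) z) := by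
    filter_upwards [f1, flat_of_bigO τ o2, i2, sm, Ph.open_source.mem_nhds p1,
      An.ev_bd (((q2 _ (Ph.map_source p1)).fderiv_right (m := 0) (by simp)).continuousAt.comp
        (q1 0 p1).continuousAt)] with z k1 k2 k3 k4 k5 k6
    refine ⟨k5, k6, fun h0 => ⟨k1 h0, fun u u' => ?_⟩⟩
    have c1 : ∀ u, ContinuousAt (fun q => Xf q u) z := fun u =>
      (cX z k5).clm_apply continuousAt_const
    have a1 : Flat 1 (fun q => S.om.bilinearComp (Pr q) (Pr q)) z :=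
      flat_clm_iff.2 fun v => flat_clm_iff.2 fun w => k3 h0 v w
    have a2 : ∀ u, Flat 1 (fun q => (cmp Pr q ∘L Xf q) u) z := fun u =>
      (k2 h0).apply continuousAt_const
    refine ((((a1.apply (c1 u)).apply (c1 u')).add ((a2 u).bilin_left S.om
      (k4.1.continuousAt.clm_apply (c1 u')))).add ((a2 u').bilin_right S.om (c1 u))).congr
      (Eventually.of_forall fun q => ?_)
    simp [cmp]
  have f3 := ((q2 _ (Ph.map_source p1)).continuousAt.tendsto.eventually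
    (by rwa [Ph.left_inv p1])).and (Ph.open_target.mem_nhds (Ph.map_source p1))
  rw [p2] at f3
  obtain ⟨δ, δ0, hδ⟩ := Metric.eventually_nhds_iff_ball.1 f3
  have C0 : 0 ≤ ‖fderiv ℝ Ph.symm (Ph 0)‖ + 1 := by positivity
  refine ⟨g, _, by positivity, Ph.source ∩ Ph ⁻¹' ball 0 δ,
    inter_mem (Ph.open_source.mem_nhds p1) ((q1 0 p1).continuousAt (p2 ▸ ball_mem_nhds _ δ0)),
    box_core (Ψ := Ph.symm) (Λ := ball 0 δ ∩ Λ) (δ := δ)
      (C := ‖fderiv ℝ Ph.symm (Ph 0)‖ + 1) ((convex_ball _ _).inter hΛ) (fun z hz h0 =>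
      ⟨⟨hz.2, (p6 z hz.1).1 ((t0 z).2 h0)⟩, (q1 z hz.1).differentiableAt (by simp), q3 z hz.1⟩)
      fun p hp => ?_, fun z hz => ⟨(q1 z hz.1).snd.of_le two_le_top, fun h0 => ?_⟩⟩
  · obtain ⟨⟨k1, k2, k3⟩, k4⟩ := hδ p hp.1
    rw [Ph.right_inv k4] at k2
    refine ⟨(mem_ball_zero_iff.1 hp.1).le, (q2 p k4).of_le two_le_top, p2.symm ▸ k2,
      fun u u' => ?_⟩
    refine (((k3 ((p6 _ k1).2 (by rw [Ph.right_inv k4]; exact hp.2))).2 u u').comp
      ((q2 p k4).differentiableAt (by simp))).congr ?_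
    filter_upwards [Ph.eventually_right_inverse k4] with p' k
    simp [Xf, k]
  · have k := (hδ _ hz.2).1.2.2
    rw [Ph.left_inv hz.1] at k
    exact (k ((t0 z).2 h0)).1

theorem ZU.box {L : ℕ} {Pr : V → V →L[ℝ] V} (h : S.ZU L Pr) (hL : 1 ≤ L) :
    ∃ (k₁ k₂ : ℕ) (g : V → EuclideanSpace ℝ (Fin k₁) × EuclideanSpace ℝ (Fin k₂)) (C : ℝ),
      0 ≤ C ∧ ∃ N ∈ 𝓝 (0 : V), S.Box g N C ∧ ∀ z ∈ N, ContDiffAt ℝ 2 g z ∧
        (S.pS z = 0 → Flat 1 (fun q => fderiv ℝ g q ∘L Pr q) z) := by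
  set τ : V →L[ℝ] V := S.iS ∘L S.pS
  have t0 : ∀ z, τ z = 0 ↔ S.pS z = 0 := fun z => by
    rw [← norm_eq_zero, ← norm_eq_zero (a := S.pS z), ← S.norm_iS (S.pS z)]
    rfl
  have ev : ∀ {R : V → Prop}, (∀ᶠ a in 𝓝 (0 : E), R (S.iU a)) → ∀ᶠ z in 𝓝 (0 : V), τ z = 0 → R z :=
    fun k => ((S.pU.continuous.tendsto' 0 0 (map_zero _)).eventually k).mono fun z hz h0 => by
      rwa [eq_iUe ((t0 z).1 h0)] at hz
  obtain ⟨r, hr⟩ := h.rk
  have hk : τ.ker = S.Eu := Submodule.ext fun z => (t0 z).trans S.mem_Eu.symm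
  have s0 := h.sm.self_of_nhds
  have i1 := ev (R := fun z => ∀ v w, Flat L (fun z => cmp Pr z
    (VectorField.lieBracket ℝ (fun y => Pr y v) (fun y => Pr y w) z)) z) h.int
  have i2 := ev (R := fun z => ∀ v w, Flat 1 (fun z => S.om (Pr z v) (Pr z w)) z) h.iso
  have i3 := ev (R := fun z => finrank ℝ ((Pr z).range ⊓ S.Eu : Submodule ℝ V) = r) hr
  obtain ⟨r₂, k₁, k₂, Ph, p1, p2, p3, p4, p5, p6, p7⟩ := An.frobO 2 τ
    (fun z => by simp [τ, S.pS_iS]) (map_zero τ) h.sm (r1 := r) (hk ▸ i3) fun v w =>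
    An.VanOn.isBigO (fun z => by simp [τ, S.pS_iS]) (map_zero τ)
      ((An.bracket_smooth s0.1 v w).of_le two_le_top) (i1.mono fun z hz h0 i hi => by
        have k := ((hz h0 v w).mono hL)
        interval_cases i
        · ext; simpa [cmp] using k.eq_zero
        · ext; simpa [cmp] using DFunLike.congr_fun k.hasFDerivAt_zero.fderiv _)
  refine ⟨k₁, k₂, box_mid t0 h.sm i2 Ph (Λ := {p | p.1.2 = 0 ∧ p.2.2 = 0}) ?_ p1 p2 p3 p4
    (by simp [← p5]) p6 p7⟩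
  intro p hp p' hp' α β _ _ _
  simp [hp.1, hp.2, hp'.1, hp'.2]

end Sys

end Vale.Agent.P207Z
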