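import Vale.Agent.P207Z.End.Rep

/-!
# P207: the velocity field of the family and the derivative of the momentum
-/

set_option linter.all false

open Set Filter Topology Metric
open scoped ContDiff

noncomputable section

namespace Vale.Agent.P207Z

variable {Γ X B E V : Type} [Group Γ] [Countable Γ] [MetricSpace X] [ProperSpace X]
  [MulAction Γ X] [IsIsometricSMul Γ X] [MeasurableSpace X] [BorelSpace X]
  [TopologicalSpace B] [CompactSpace B] [T2Space B] [SecondCountableTopology B] [MulAction Γ B]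
  [ContinuousConstSMul Γ B] [MeasurableSpace B] [BorelSpace B]
  [NormedAddCommGroup E] [InnerProductSpace ℝ E] [FiniteDimensional ℝ E]
  [NormedAddCommGroup V] [NormedSpace ℝ V] [FiniteDimensional ℝ V]
  {A A' K W : Type} [NormedAddCommGroup A] [NormedSpace ℝ A] [NormedAddCommGroup A']
  [NormedSpace ℝ A'] [NormedAddCommGroup K] [NormedSpace ℝ K] [NormedAddCommGroup W]
  [NormedSpace ℝ W] [FiniteDimensional ℝ W] {S : Sys Γ X B E V}

namespace Sys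

theorem lin_lim {ι : Type} {l : Filter ι} [l.NeBot] {L : ι → W →L[ℝ] E} {L₀ : W →L[ℝ] E}
    {b : ι → E} {b₀ : E} {a : ι → W} (hL : Tendsto L l (𝓝 L₀)) (hb : Tendsto b l (𝓝 b₀))
    (hi : ∀ e, L₀ e = 0 → e = 0) (h : ∀ᶠ i in l, L i (a i) = b i) :
    ∃ a₀, L₀ a₀ = b₀ ∧ Tendsto a l (𝓝 a₀) := by
  obtain ⟨g, hg⟩ := (L₀ : W →ₗ[ℝ] E).exists_leftInverse_of_injective (LinearMap.ker_eq_bot'.2 hi)
  let G : E →L[ℝ] W := LinearMap.toContinuousLinearMap g
  have hG : ∀ e, G (L₀ e) = e := fun e => DFunLike.congr_fun hg e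
  have h0 : Tendsto (fun i => ‖L₀ - L i‖) l (𝓝 0) :=
    (tendsto_iff_norm_sub_tendsto_zero.1 hL).congr fun i => norm_sub_rev _ _
  have h1 : ∀ᶠ i in l, ‖a i‖ ≤ 2 * (‖G‖ * (‖b₀‖ + 1)) := by
    have k : Tendsto (fun i => ‖G‖ * ‖L₀ - L i‖) l (𝓝 0) := by simpa using h0.const_mul ‖G‖
    filter_upwards [h, k.eventually (Iic_mem_nhds one_half_pos),
      hb.norm.eventually (Iic_mem_nhds (lt_add_one _))] with i k1 k2 k3
    have k4 : a i = G (b i) + G ((L₀ - L i) (a i)) := by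
      rw [← map_add, ← k1, ContinuousLinearMap.sub_apply, add_sub_cancel, hG]
    have k5 := G.le_of_opNorm_le_of_le le_rfl k3
    have k6 := G.le_of_opNorm_le_of_le le_rfl ((L₀ - L i).le_opNorm (a i))
    have k7 := norm_add_le (G (b i)) (G ((L₀ - L i) (a i)))
    rw [← k4] at k7
    have k8 := mul_le_mul_of_nonneg_right k2 (norm_nonneg (a i))
    rw [← mul_assoc] at k6
    linarith
  have h2 : Tendsto (fun i => L₀ (a i)) l (𝓝 b₀) := by
    have k : Tendsto (fun i => (L₀ - L i) (a i)) l (𝓝 0) := by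
      refine squeeze_zero_norm' (h1.mono fun i hi => (L₀ - L i).le_of_opNorm_le_of_le le_rfl hi) ?_
      simpa using h0.mul_const (2 * (‖G‖ * (‖b₀‖ + 1)))
    have k1 := hb.add k
    rw [add_zero] at k1
    exact k1.congr' (h.mono fun i hi => by
      simp only [← hi, ContinuousLinearMap.sub_apply, add_sub_cancel])
  have h3 : Tendsto a l (𝓝 (G b₀)) := ((G.continuous.tendsto _).comp h2).congr fun i => hG _
  exact ⟨G b₀, tendsto_nhds_unique ((L₀.continuous.tendsto _).comp h3) h2, h3⟩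

theorem tan_lim {P : A × W → B × B} {p₀ : A × W} {x : X} {Q : A × W → V} (h : S.Rep P p₀ x Q)
    (hi : ∀ z Q', S.Rep P p₀ z Q' → Q' p₀ = 0 → ∀ e, S.pS (fderiv ℝ Q' p₀ (0, e)) = 0 → e = 0)
    {ι : Type} (l : Ultrafilter ι) {p : ι → A × W} (hp : Tendsto p l (𝓝 p₀)) {d : A} {a : ι → W}
    (ha : ∀ᶠ i in l, S.TanU P (p i) (d, a i)) :
    ∃ a₀, S.TanU P p₀ (d, a₀) ∧ Tendsto a l (𝓝 a₀) := by
  obtain ⟨D, hD⟩ := S.fr_near (a := (‖Q p₀‖ + 1) / 2) (by linarith [mem_ball_zero_iff.1 h.mem])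
  have := S.nonempty
  choose! y y1 y2 using hD x
  have hQ := h.diff.continuousAt.tendsto.comp hp
  have e1 : ∀ᶠ i in l, ‖Q (p i)‖ ≤ (‖Q p₀‖ + 1) / 2 :=
    hQ.norm.eventually (Iic_mem_nhds (by linarith [mem_ball_zero_iff.1 h.mem]))
  obtain ⟨z, -, hz⟩ := (isCompact_closedBall x D).ultrafilter_le_nhds (l.map fun i => y (Q (p i)))
    (le_principal_iff.2 (e1.mono fun i hi => mem_closedBall'.2 (y2 _ hi)))
  have hz : Tendsto (fun i => y (Q (p i))) l (𝓝 z) := hz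
  have e2 : ∀ᶠ i in l, S.Rep P (p i) x Q ∧ S.pt (y (Q (p i))) = P (p i) := by
    filter_upwards [e1, hp.eventually h.eventually] with i k1 k2
    exact ⟨k2, (y1 _ k1).trans k2.eq0.symm⟩
  have z1 : S.pt z = P p₀ := tendsto_nhds_unique_of_eventuallyEq
    ((S.pt_cont.tendsto z).comp hz) (h.cont.tendsto.comp hp) (e2.mono fun i hi => hi.2)
  obtain ⟨z2, z3⟩ := h.centre z1
  have t1 := ((jc_τ (S := S)).fderiv.continuousOn.continuousAt (x := ((x, z), Q p₀))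
    (isOpen_Dm.mem_nhds (h.dom z2))).tendsto.comp ((tendsto_const_nhds.prodMk_nhds hz).prodMk_nhds hQ)
  have t2 : Tendsto (fun i => S.pS ∘L fderiv ℝ (S.τ x (y (Q (p i)))) (Q (p i)) ∘L fderiv ℝ Q (p i))
      l (𝓝 (S.pS ∘L fderiv ℝ (S.τ x z) (Q p₀) ∘L fderiv ℝ Q p₀)) :=
    ((by fun_prop : Continuous fun q : (V →L[ℝ] V) × (A × W →L[ℝ] V) =>
      S.pS ∘L q.1 ∘L q.2).tendsto _).comp (t1.prodMk_nhds (h.diff2.continuousAt.tendsto.comp hp))
  have sp : ∀ (L : A × W →L[ℝ] E) (e : W), (L ∘L ContinuousLinearMap.inr ℝ A W) e = -L (d, 0) ↔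
      L (d, e) = 0 := fun L e => by
    rw [eq_neg_iff_add_eq_zero, ContinuousLinearMap.comp_apply, ← map_add]
    simp
  obtain ⟨a₀, k1, k2⟩ := lin_lim (a := a) (((by fun_prop : Continuous fun L : A × W →L[ℝ] E =>
      L ∘L ContinuousLinearMap.inr ℝ A W).tendsto _).comp t2)
    (((by fun_prop : Continuous fun L : A × W →L[ℝ] E => -L (d, 0)).tendsto _).comp t2)
    (fun e he => hi z _ z2 z3 e (by rw [h.fderiv_eq z2]; exact he)) (by
      filter_upwards [e2, ha] with i k1 k2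
      obtain ⟨k3, k4⟩ := k1.1.centre k1.2
      have := k2 _ _ k3 k4
      rw [k1.1.fderiv_eq k3] at this
      exact (sp _ _).2 this)
  exact ⟨a₀, z2.tanU z3 (by rw [h.fderiv_eq z2]; exact (sp _ _).1 k1), k2⟩

theorem Rep.axis {P : A → B × B} {x : X} {Q : A → V} {ι : A' → A} {ι' : A' →L[ℝ] A} {a : A'}
    (h : S.Rep P (ι a) x Q) (hι : HasFDerivAt ι ι' a) (L : V →L[ℝ] E)
    (e : ∀ᶠ a' in 𝓝 a, L (Q (ι a')) = 0) (v : A') : L (fderiv ℝ Q (ι a) (ι' v)) = 0 :=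
  DFunLike.congr_fun ((L.hasFDerivAt.comp a (h.diff.hasFDerivAt.comp a hι)).unique
    ((hasFDerivAt_const 0 a).congr_of_eventuallyEq e)) v

theorem hasFDerivAt_bil {Q : A → V} {p : A} {Q₂ : A →L[ℝ] A →L[ℝ] V}
    (h : HasFDerivAt (fderiv ℝ Q) Q₂ p) (b : V →L[ℝ] V →L[ℝ] ℝ) (u v : A) :
    HasFDerivAt (fun p => b (fderiv ℝ Q p u) (fderiv ℝ Q p v))
      (b.flip (fderiv ℝ Q p v) ∘L Q₂.flip u + b (fderiv ℝ Q p u) ∘L Q₂.flip v) p := by
  have k : ∀ u, HasFDerivAt (fun p => fderiv ℝ Q p u) (Q₂.flip u) p := fun u => by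
    simpa using h.clm_apply (hasFDerivAt_const u p)
  refine (b.hasFDerivAt_of_bilinear (k u) (k v)).congr_fderiv ?_
  ext d
  simp [add_comm]

theorem om_antie (S : Sys Γ X B E V) (v w : V) : S.om v w = -S.om w v := by
  rw [om_apply, om_apply, real_inner_comm (S.pS w), real_inner_comm (S.pU w)]
  ring

variable {L : ℕ} {P : (ℝ × K) × W → B × B} {O : Set (ℝ × K)} {σ₀ : ℝ} {ξ : B} {β : ℝ × K → B}
  {M : ℝ × K → W →L[ℝ] K →L[ℝ] ℝ} {G : Set ℝ} {x : X} {Q : (ℝ × K) × W → V} {y : ℝ × K} {s : W}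

namespace Fam

theorem ex (h : S.Fam L P O σ₀ ξ β M G) (hy : y ∈ O) (s : W) : ∃ x Q, S.Rep P (y, s) x Q :=
  (h.rep y hy s).imp fun _ k => k.imp fun _ k => k.1

theorem om_σ (h : S.Fam L P O σ₀ ξ β M G) (hy : y ∈ O) (r : S.Rep P (y, s) x Q) (e : W) :
    S.om (fderiv ℝ Q (y, s) (0, e)) (fderiv ℝ Q (y, s) ((1, 0), 0)) = 0 := by
  obtain ⟨x', Q', k1, k2, -⟩ := h.rep y hy s
  exact (k1.om_eq r _ _).trans (k2 e)

theorem om_κ (h : S.Fam L P O σ₀ ξ β M G) (hy : y ∈ O) (r : S.Rep P (y, s) x Q) (e : W) (k : K) :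
    S.om (fderiv ℝ Q (y, s) (0, e)) (fderiv ℝ Q (y, s) ((0, k), 0)) = M y e k := by
  obtain ⟨x', Q', k1, -, k2⟩ := h.rep y hy s
  exact (k1.om_eq r _ _).trans (k2 e k)

theorem pU_s (h : S.Fam L P O σ₀ ξ β M G) (hy : y ∈ O) (r : S.Rep P (y, s) x Q)
    (h0 : Q (y, s) = 0) (e : W) : S.pU (fderiv ℝ Q (y, s) (0, e)) = 0 := by
  refine r.axis (hasFDerivAt_prodMk_right y s) S.pU ?_ e
  filter_upwards [(Continuous.prodMk_right y).continuousAt.eventually r.eventually] with s' k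
  exact (S.c_S x _ k.mem).1 (by rw [← k.eq0, h.leaf y hy, ← h.leaf y hy s, ← r.pt_eq h0]; rfl)

theorem om_s (h : S.Fam L P O σ₀ ξ β M G) (hy : y ∈ O) (r : S.Rep P (y, s) x Q) (e e' : W) :
    S.om (fderiv ℝ Q (y, s) (0, e)) (fderiv ℝ Q (y, s) (0, e')) = 0 := by
  obtain ⟨z, Q', k1, k2⟩ := r.exists_centre
  rw [k1.om_eq r, om_apply, h.pU_s hy k1 k2, h.pU_s hy k1 k2]
  simp

theorem om_base (h : S.Fam L P O σ₀ ξ β M G) (hy : y ∈ O) (r : S.Rep P (y, 0) x Q)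
    (d d' : ℝ × K) : S.om (fderiv ℝ Q (y, 0) (d, 0)) (fderiv ℝ Q (y, 0) (d', 0)) = 0 := by
  obtain ⟨z, Q', k1, k2⟩ := r.exists_centre
  have k : ∀ d, S.pS (fderiv ℝ Q' (y, 0) (d, 0)) = 0 := fun d => by
    refine Rep.axis (ι := fun y => (y, 0)) k1 (hasFDerivAt_prodMk_left y 0) S.pS ?_ d
    filter_upwards [(Continuous.prodMk_left (0 : W)).continuousAt.eventually k1.eventually,
      h.isOpen.mem_nhds hy] with y' k k'
    exact (S.c_U z _ k.mem).1 (by rw [← k.eq0, h.base y' k', ← h.base y hy, ← k1.pt_eq k2]; rfl)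
  rw [k1.om_eq r, om_apply, k, k]
  simp

theorem imm (h : S.Fam L P O σ₀ ξ β M G) (hy : y ∈ O) (r : S.Rep P (y, s) x Q)
    (h0 : Q (y, s) = 0) (e : W) (he : S.pS (fderiv ℝ Q (y, s) (0, e)) = 0) : e = 0 := by
  refine h.inj y hy e (ContinuousLinearMap.ext fun k => ?_)
  rw [← h.om_κ hy r, om_apply, he, h.pU_s hy r h0]
  simp

theorem exists_vel (h : S.Fam L P O σ₀ ξ β M G) : ∃ a : ℝ → W → W,
    ContinuousOn (fun p : ℝ × W => a p.1 p.2) (Icc 0 σ₀ ×ˢ univ) ∧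
      ∀ σ ∈ Icc 0 σ₀, ∀ s, S.TanU P ((σ, 0), s) ((1, 0), a σ s) := by
  have e : ∀ σ ∈ Icc 0 σ₀, ∀ s, ∃ a, S.TanU P ((σ, 0), s) ((1, 0), a) := fun σ hσ s => by
    have := mem_closure_iff_nhdsWithin_neBot.1 (h.dense hσ)
    choose! x Q a k1 k2 k3 using fun σ hσ => h.tan σ hσ s
    obtain ⟨x', Q', r⟩ := h.ex (h.seg σ hσ) s
    have k := Ultrafilter.of_le (𝓝[G ∩ Icc 0 σ₀] σ)
    exact (tan_lim r (fun z Q' => h.imm (h.seg σ hσ)) (Ultrafilter.of (𝓝[G ∩ Icc 0 σ₀] σ))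
      (((by fun_prop : Continuous fun σ : ℝ => (((σ, 0), s) : (ℝ × K) × W)).tendsto σ).mono_left
        (k.trans nhdsWithin_le_nhds)) (a := a)
      (k (mem_of_superset self_mem_nhdsWithin fun σ' k' =>
        (k1 σ' k').tanU (k2 σ' k') (k3 σ' k')))).imp fun _ k => k.1
  choose! a ha using e
  refine ⟨a, fun p hp => (tendsto_iff_ultrafilter _ _ _).2 fun l hl => ?_, ha⟩
  obtain ⟨x', Q', r⟩ := h.ex (h.seg p.1 hp.1) p.2
  obtain ⟨a₀, k1, k2⟩ := tan_lim r (fun z Q' => h.imm (h.seg p.1 hp.1)) l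
    (((by fun_prop : Continuous fun p : ℝ × W => (((p.1, 0), p.2) : (ℝ × K) × W)).tendsto p).mono_left
      (hl.trans nhdsWithin_le_nhds)) (a := fun p => a p.1 p.2)
    (hl (mem_of_superset self_mem_nhdsWithin fun p' k' => ha p'.1 k'.1 p'.2))
  obtain ⟨z, Q, k3, k4⟩ := r.exists_centre
  have k5 : a p.1 p.2 - a₀ = 0 := h.imm (h.seg p.1 hp.1) k3 k4 _ (by
    have := congrArg₂ (· - ·) (ha p.1 hp.1 p.2 z Q k3 k4) (k1 z Q k3 k4)
    simpa only [← map_sub, Prod.mk_sub_mk, sub_self] using this)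
  rwa [← sub_eq_zero.1 k5] at k2

theorem ev (h : S.Fam L P O σ₀ ξ β M G) (hy : y ∈ O) (r : S.Rep P (y, s) x Q) :
    ∀ᶠ p in 𝓝 (y, s), p.1 ∈ O ∧ S.Rep P (p.1, p.2) x Q :=
  (continuous_fst.continuousAt.eventually (h.isOpen.mem_nhds hy)).and r.eventually

theorem dM (h : S.Fam L P O σ₀ ξ β M G) (hy : y ∈ O) (r : S.Rep P (y, s) x Q) (e : W) (k : K)
    (d : (ℝ × K) × W) :
    S.om (fderiv ℝ (fderiv ℝ Q) (y, s) d (0, e)) (fderiv ℝ Q (y, s) ((0, k), 0)) +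
      S.om (fderiv ℝ Q (y, s) (0, e)) (fderiv ℝ (fderiv ℝ Q) (y, s) d ((0, k), 0)) =
      fderiv ℝ (fun y => M y e k) y d.1 := by
  have k1 := (hasFDerivAt_bil r.diff2 S.om (0, e) ((0, k), 0)).congr_of_eventuallyEq
    (f₁ := fun p => M p.1 e k) ((h.ev hy r).mono fun p hp => (h.om_κ hp.1 hp.2 e k).symm)
  have k2 := HasFDerivAt.comp (f := fun y => (y, s)) y k1 (hasFDerivAt_prodMk_left y s)
  have k3 : DifferentiableAt ℝ (fun y => M y e k) y := k2.differentiableAt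
  exact DFunLike.congr_fun (k1.unique (HasFDerivAt.comp (f := Prod.fst) (y, s) k3.hasFDerivAt
    hasFDerivAt_fst)) d

theorem dσ (h : S.Fam L P O σ₀ ξ β M G) (hy : y ∈ O) (r : S.Rep P (y, s) x Q) (e : W)
    (d : (ℝ × K) × W) :
    S.om (fderiv ℝ (fderiv ℝ Q) (y, s) d (0, e)) (fderiv ℝ Q (y, s) ((1, 0), 0)) +
      S.om (fderiv ℝ Q (y, s) (0, e)) (fderiv ℝ (fderiv ℝ Q) (y, s) d ((1, 0), 0)) = 0 :=
  DFunLike.congr_fun (((hasFDerivAt_bil r.diff2 S.om (0, e) ((1, 0), 0)).congr_of_eventuallyEq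
    (f₁ := fun _ => 0) ((h.ev hy r).mono fun p hp => (h.om_σ hp.1 hp.2 e).symm)).unique
    (hasFDerivAt_const _ _)) d

theorem om_σκ (h : S.Fam L P O σ₀ ξ β M G) (hy : y ∈ O) (r : S.Rep P (y, s) x Q) (k : K) :
    S.om (fderiv ℝ Q (y, s) ((1, 0), 0)) (fderiv ℝ Q (y, s) ((0, k), 0)) =
      fderiv ℝ (fun y => M y s k) y (1, 0) := by
  choose xx QQ hQ using h.ex hy
  set F : W → ℝ := fun s => S.om (fderiv ℝ (QQ s) (y, s) ((1, 0), 0))
    (fderiv ℝ (QQ s) (y, s) ((0, k), 0))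
  set c := fderiv ℝ (fun y => M y s k) y (1, 0)
  have k1 : ∀ t : ℝ, HasDerivAt (fun t : ℝ => F (t • s) - t * c) 0 t := fun t => by
    have r := hQ (t • s)
    have a1 : HasDerivAt (fun t : ℝ => (y, t • s)) (0, s) t := by
      simpa using (hasDerivAt_const t y).prodMk ((hasDerivAt_id t).smul_const s)
    have a2 := ((hasFDerivAt_bil r.diff2 S.om ((1, 0), 0) ((0, k), 0)).comp_hasDerivAt t a1).sub
      (hasDerivAt_mul_const c)
    have a3 := h.dM hy r s k ((1, 0), 0)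
    have a4 := h.dσ hy r s ((0, k), 0)
    refine (a2.congr_deriv ?_).congr_of_eventuallyEq ?_
    · rw [r.symm2 ((1, 0), 0) (0, s), r.symm2 ((1, 0), 0)] at a3
      rw [r.symm2 _ (0, s), S.om_antie] at a4
      simp only [ContinuousLinearMap.add_apply, ContinuousLinearMap.comp_apply,
        ContinuousLinearMap.flip_apply, c]
      linarith
    · filter_upwards [a1.continuousAt.eventually r.eventually] with t' k'
      exact congrArg (· - t' * c) (k'.om_eq (hQ _) _ _)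
  have k2 := is_const_of_deriv_eq_zero (fun t => (k1 t).differentiableAt) (fun t => (k1 t).deriv) 1 0
  simp only [one_smul, zero_smul, one_mul, zero_mul, F, h.om_base hy (hQ 0)] at k2
  rw [(hQ s).om_eq r]
  linarith

/-- the derivative of the momentum -/
theorem mom (h : S.Fam L P O σ₀ ξ β M G) {s : ℝ → W} {a : W} {I : Set ℝ} {t : ℝ}
    (hy : ((t, 0) : ℝ × K) ∈ O) (hs : HasDerivWithinAt s a I t) (ht : t ∈ I)
    (r : S.Rep P ((t, 0), s t) x Q) (k : K) : HasDerivWithinAt (fun t => M (t, 0) (s t) k)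
      (S.om (fderiv ℝ Q ((t, 0), s t) ((1, 0), a)) (fderiv ℝ Q ((t, 0), s t) ((0, k), 0))) I t := by
  have a1 : HasDerivWithinAt (fun t : ℝ => (((t, 0), s t) : (ℝ × K) × W)) ((1, 0), a) I t :=
    ((hasDerivWithinAt_id t I).prodMk (hasDerivWithinAt_const t I 0)).prodMk hs
  have a2 := r.diff2.comp_hasDerivWithinAt t a1
  have a3 := ((S.om.hasFDerivAt.comp_hasDerivWithinAt t (a2.clm_apply
    ((hasDerivWithinAt_const t I (0 : ℝ × K)).prodMk hs))).clm_apply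
    (a2.clm_apply (hasDerivWithinAt_const t I (((0, k), 0) : (ℝ × K) × W))))
  have a4 : ∀ᶠ t' in 𝓝[I] t, M (t', 0) (s t') k = S.om (fderiv ℝ Q ((t', 0), s t') (0, s t'))
      (fderiv ℝ Q ((t', 0), s t') ((0, k), 0)) :=
    (a1.continuousWithinAt.eventually (h.ev hy r)).mono fun t' k' => (h.om_κ k'.1 k'.2 _ k).symm
  refine (a3.congr_deriv ?_).congr_of_eventuallyEq a4 (a4.self_of_nhdsWithin ht)
  have a5 := h.dM hy r (s t) k ((1, 0), a)
  have a6 : (((1, 0), a) : (ℝ × K) × W) = ((1, 0), 0) + (0, a) := by simp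
  rw [← h.om_σκ hy r] at a5
  conv_rhs => rw [a6]
  simp only [Function.comp, map_add, map_zero, add_zero, ContinuousLinearMap.add_apply]
  linarith

end Fam

end Sys

end Vale.Agent.P207Z
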